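import Vale.Agent.P022.Iface

/-! Combination of systems of eigenvalues through the monoid algebra of ideals. -/

namespace Vale.Agent.P022.H120

noncomputable section

variable {S : Type} [Monoid S] {v : AbsoluteValue ℂ ℝ}

lemma v_int_le (hv : ∀ x y : ℂ, v (x + y) ≤ max (v x) (v y)) (n : ℤ) : v (n : ℂ) ≤ 1 := by
  have hnat : ∀ n : ℕ, v (n : ℂ) ≤ 1 := by
    intro n
    induction n with
    | zero => simp
    | succ n ih =>
      push_cast
      exact (hv _ _).trans (max_le ih (by simp))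
  rcases Int.eq_nat_or_neg n with ⟨k, rfl | rfl⟩
  · simpa using hnat k
  · simpa using hnat k

lemma v_sum_le (hv : ∀ x y : ℂ, v (x + y) ≤ max (v x) (v y)) {ι : Type} (s : Finset ι)
    (f : ι → ℂ) {e : ℝ} (he : 0 ≤ e) (h : ∀ i ∈ s, v (f i) ≤ e) : v (∑ i ∈ s, f i) ≤ e := by
  classical
  induction s using Finset.induction_on with
  | empty => simpa using he
  | insert a s ha ih =>
    rw [Finset.sum_insert ha]
    refine (hv _ _).trans (max_le (h a (Finset.mem_insert_self a s)) ?_)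
    exact ih fun i hi => h i (Finset.mem_insert_of_mem hi)

/-- Evaluation of an element of the monoid algebra. -/
def ev (φ : S →* ℂ) : MonoidAlgebra ℤ S →+* ℂ := (MonoidAlgebra.lift ℤ ℂ S φ).toRingHom

lemma ev_apply (φ : S →* ℂ) (x : MonoidAlgebra ℤ S) :
    ev φ x = x.coeff.sum fun s n => (n : ℂ) * φ s := by
  simp [ev, MonoidAlgebra.lift_apply]

lemma approx (hv : ∀ x y : ℂ, v (x + y) ≤ max (v x) (v y)) (Ψ : S →* ℂ) {r : ℕ}
    (c : Fin r → ℂ) (φ : Fin r → (S →* ℂ)) {e : ℝ} (he : 0 ≤ e)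
    (h : ∀ s, v (Ψ s - ∑ i, c i * φ i s) ≤ e) (x : MonoidAlgebra ℤ S) :
    v (ev Ψ x - ∑ i, c i * ev (φ i) x) ≤ e := by
  have key : ev Ψ x - ∑ i, c i * ev (φ i) x
      = ∑ s ∈ x.coeff.support, (x.coeff s : ℂ) * (Ψ s - ∑ i, c i * φ i s) := by
    simp only [ev_apply, Finsupp.sum]
    simp only [mul_sub, Finset.mul_sum, Finset.sum_sub_distrib]
    congr 1
    rw [Finset.sum_comm]
    refine Finset.sum_congr rfl fun s _ => Finset.sum_congr rfl fun i _ => ?_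
    ring
  rw [key]
  refine v_sum_le hv _ _ he fun s _ => ?_
  rw [map_mul]
  calc v (x.coeff s : ℂ) * v (Ψ s - ∑ i, c i * φ i s) ≤ 1 * e :=
        mul_le_mul (v_int_le hv _) (h s) (v.nonneg _) zero_le_one
    _ = e := one_mul e

/-- Abstract form of the combination. -/
theorem combine (hv : ∀ x y : ℂ, v (x + y) ≤ max (v x) (v y)) {G : Type}
    (Ann : ℕ → FreeAlgebra ℤ G → Prop) (hmono : ∀ k l, k ≤ l → ∀ P, Ann l P → Ann k P)
    (x : G → MonoidAlgebra ℤ S) (Ψ : S →* ℂ)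
    (h : ∀ m : ℕ, ∃ (r : ℕ) (c : Fin r → ℂ) (φ : Fin r → (S →* ℂ)),
      (∀ s, v (Ψ s - ∑ i, c i * φ i s) ≤ (1 / 2) ^ m) ∧
      ∀ i, ∀ m : ℕ, ∃ k, ∀ P, Ann k P →
        v (FreeAlgebra.lift ℤ (fun g => ev (φ i) (x g)) P) ≤ (1 / 2) ^ m) :
    ∀ m : ℕ, ∃ k, ∀ P, Ann k P →
        v (FreeAlgebra.lift ℤ (fun g => ev Ψ (x g)) P) ≤ (1 / 2) ^ m := by
  intro m
  obtain ⟨r, c, φ, hΨ, hφ⟩ := h m
  -- a bound for the coefficients
  obtain ⟨b, hb⟩ : ∃ b : ℕ, ∀ i, v (c i) ≤ 2 ^ b := by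
    have : ∀ i, ∃ b : ℕ, v (c i) ≤ 2 ^ b := fun i => by
      obtain ⟨b, hb⟩ := pow_unbounded_of_one_lt (v (c i)) (by norm_num : (1 : ℝ) < 2)
      exact ⟨b, hb.le⟩
    choose b hb using this
    refine ⟨∑ i, b i, fun i => (hb i).trans ?_⟩
    exact pow_le_pow_right₀ (by norm_num) (Finset.single_le_sum (f := b) (by simp) (Finset.mem_univ i))
  have hk : ∀ i, ∃ k, ∀ P, Ann k P →
      v (FreeAlgebra.lift ℤ (fun g => ev (φ i) (x g)) P) ≤ (1 / 2) ^ (m + b) := fun i => hφ i (m + b)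
  choose k hk using hk
  refine ⟨∑ i, k i, fun P hP => ?_⟩
  set y : MonoidAlgebra ℤ S := FreeAlgebra.lift ℤ x P with hy
  have hlift : ∀ χ : S →* ℂ, FreeAlgebra.lift ℤ (fun g => ev χ (x g)) P = ev χ y := by
    intro χ
    have h1 : FreeAlgebra.lift ℤ (fun g => ev χ (x g))
        = ((MonoidAlgebra.lift ℤ ℂ S χ : MonoidAlgebra ℤ S →ₐ[ℤ] ℂ)).comp (FreeAlgebra.lift ℤ x) := by
      apply FreeAlgebra.hom_ext
      funext g
      simp [ev]
    rw [h1, hy]; rfl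
  have h2 := approx hv Ψ c φ (by positivity) hΨ y
  have h3 : v (∑ i, c i * ev (φ i) y) ≤ (1 / 2) ^ m := by
    refine v_sum_le hv _ _ (by positivity) fun i _ => ?_
    have h4 : v (ev (φ i) y) ≤ (1 / 2) ^ (m + b) := by
      rw [← hlift]
      refine hk i P (hmono _ _ ?_ P hP)
      exact Finset.single_le_sum (f := k) (by simp) (Finset.mem_univ i)
    rw [map_mul]
    calc v (c i) * v (ev (φ i) y) ≤ 2 ^ b * (1 / 2) ^ (m + b) :=
          mul_le_mul (hb i) h4 (v.nonneg _) (by positivity)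
      _ = (1 / 2) ^ m := by
          rw [pow_add, mul_left_comm, ← mul_pow]; norm_num
  rw [hlift]
  have h5 : ev Ψ y = (ev Ψ y - ∑ i, c i * ev (φ i) y) + ∑ i, c i * ev (φ i) y := by ring
  rw [h5]
  exact (hv _ _).trans (max_le h2 h3)

end

end Vale.Agent.P022.H120
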