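import Vale.Agent.P022.Iface

/-! The complex numbers carry a 2-adic absolute value extending that of any finite extension of
the 2-adic numbers. -/

namespace Vale.Agent.P022.H120

open Cardinal

noncomputable section

lemma mk_padic : #ℚ_[2] = 𝔠 := by
  apply le_antisymm
  · have h1 : #ℚ_[2] ≤ #(PadicSeq 2) := Cardinal.mk_quotient_le
    have h2 : #(PadicSeq 2) ≤ #(ℕ → ℚ) := Cardinal.mk_subtype_le _
    have h3 : #(ℕ → ℚ) = 𝔠 := by simp
    exact h1.trans (h2.trans h3.le)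
  · exact continuum_le_cardinal_of_nontriviallyNormedField ℚ_[2]

lemma mk_padicAlgCl : #(PadicAlgCl 2) = 𝔠 := by
  apply le_antisymm
  · have h := Algebra.IsAlgebraic.cardinalMk_le_max ℚ_[2] (PadicAlgCl 2)
    rw [mk_padic] at h
    simpa [max_eq_left aleph0_le_continuum] using h
  · rw [← mk_padic]
    exact Cardinal.mk_le_of_injective (algebraMap ℚ_[2] (PadicAlgCl 2)).injective

lemma exists_iso : Nonempty (PadicAlgCl 2 ≃+* ℂ) := by
  apply IsAlgClosed.ringEquiv_of_equiv_of_charZero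
  · rw [mk_padicAlgCl]; exact aleph0_lt_continuum
  · apply Cardinal.eq.mp
    rw [mk_padicAlgCl, Cardinal.mk_complex]

/-- P15. -/
theorem exists_embed (E : Type) [NormedField E] [NormedAlgebra ℚ_[2] E]
    [FiniteDimensional ℚ_[2] E] :
    ∃ (v : AbsoluteValue ℂ ℝ) (i : E →+* ℂ), TwoAdic v ∧ ∀ x, v (i x) = ‖x‖ := by
  obtain ⟨e⟩ := exists_iso
  let j : E →ₐ[ℚ_[2]] PadicAlgCl 2 := IsAlgClosed.lift
  let v : AbsoluteValue ℂ ℝ :=
    { toFun := fun z => ‖e.symm z‖
      map_mul' := fun x y => by simp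
      nonneg' := fun x => norm_nonneg _
      eq_zero' := fun x => by simp
      add_le' := fun x y => by simpa using norm_add_le (e.symm x) (e.symm y) }
  refine ⟨v, e.toRingHom.comp j.toRingHom, ⟨fun x y => ?_, ?_⟩, fun x => ?_⟩
  · change ‖e.symm (x + y)‖ ≤ max ‖e.symm x‖ ‖e.symm y‖
    rw [map_add]
    exact PadicAlgCl.isNonarchimedean 2 _ _
  · change ‖e.symm 2‖ = 1 / 2
    have h2 : e.symm 2 = algebraMap ℚ_[2] (PadicAlgCl 2) 2 := by rw [map_ofNat, map_ofNat]
    rw [h2]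
    have := PadicAlgCl.norm_extends 2 (2 : ℚ_[2])
    rw [show ((2 : ℚ_[2]) : PadicAlgCl 2) = algebraMap ℚ_[2] (PadicAlgCl 2) 2 from rfl] at this
    rw [this]
    have h3 := Padic.norm_p (p := 2)
    norm_num at h3 ⊢
    exact h3
  · change ‖e.symm (e (j x))‖ = ‖x‖
    rw [RingEquiv.symm_apply_apply, NormedAlgebra.norm_eq_spectralNorm ℚ_[2] x,
      NormedAlgebra.norm_eq_spectralNorm ℚ_[2] (j x)]
    unfold spectralNorm
    rw [minpoly.algHom_eq j j.injective x]

end

end Vale.Agent.P022.H120
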