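import Vale.Agent.P022.H735.Recip
import Vale.Agent.P022.H191.Dens
import Vale.Agent.P022.H374.N5

/-! Frobenius elements generate: `FG_statement` from Bauer's theorem. -/

namespace Vale.Agent.P022.H120

open NumberField IsDedekindDomain

noncomputable section

theorem FG : FG_statement := by
  classical
  intro L _ _ hGal _ ⟨S, hS⟩
  obtain ⟨D, hD, hun⟩ := H374.exists_unram ℚ L
  set n : ℕ := D * ∏ p ∈ S.filter Nat.Prime, p with hn
  have hn0 : 0 < n := Nat.mul_pos hD (Finset.prod_pos fun p hp => (Finset.mem_filter.mp hp).2.pos)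
  have hne : (Ideal.span {(n : 𝓞 ℚ)}) ≠ 0 := by
    rw [Ne, Ideal.zero_eq_bot, Ideal.span_singleton_eq_bot]
    exact_mod_cast hn0.ne'
  have hsplit : ∀ 𝔭 : Ideal (𝓞 ℚ), 𝔭.IsPrime → 𝔭 ≠ ⊥ → (n : 𝓞 ℚ) ∉ 𝔭 → H191.Split ℚ L 𝔭 := by
    intro 𝔭 h1 h2 h3
    have hD𝔭 : (D : 𝓞 ℚ) ∉ 𝔭 := by
      intro h
      apply h3
      rw [hn]
      push_cast
      exact Ideal.mul_mem_right _ _ h
    refine ⟨h1, h2, hun 𝔭 h1 hD𝔭, ?_⟩
    obtain ⟨p, k, hp, -, hp𝔭, hN, -⟩ := exists_char 𝔭 h1 h2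
    have hpS : p ∉ S := by
      intro h
      apply h3
      have hdvd : p ∣ n := by
        rw [hn]
        exact (Finset.dvd_prod_of_mem _ (Finset.mem_filter.mpr ⟨h, hp⟩)).mul_left _
      obtain ⟨c, hc⟩ := hdvd
      rw [hc]
      push_cast
      exact Ideal.mul_mem_right _ _ hp𝔭
    obtain ⟨P, -, hP, hP𝔭⟩ := Ideal.exists_ideal_over_prime_of_isIntegral_of_isPrime 𝔭
      (⊥ : Ideal (𝓞 L)) (by
        rw [← RingHom.ker_eq_comap_bot, NumberField.RingOfIntegers.ker_algebraMap_eq_bot]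
        exact bot_le)
    refine ⟨P, hP, hP𝔭, fun x y hy => ?_⟩
    have hxy : y = x := by
      apply NumberField.RingOfIntegers.ext
      simpa using hy
    have hpP : (p : 𝓞 L) ∈ P := by
      have : (p : 𝓞 ℚ) ∈ P.comap (algebraMap (𝓞 ℚ) (𝓞 L)) := by rw [hP𝔭]; exact hp𝔭
      rw [Ideal.mem_comap, map_natCast] at this
      exact this
    have hpow : ∀ k : ℕ, x - x ^ (p ^ k) ∈ P := by
      intro k
      induction k with
      | zero => simp
      | succ k ih =>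
        have h5 := hS p hp hpS P hP hpP (x ^ p ^ k)
        have h6 : x - x ^ p ^ (k + 1) = (x - x ^ p ^ k) - ((x ^ p ^ k) ^ p - x ^ p ^ k) := by
          rw [← pow_mul, ← pow_succ]; ring
        rw [h6]
        exact P.sub_mem ih h5
    rw [hxy, hN]
    exact hpow k
  have hfin : {𝔭 : Ideal (𝓞 ℚ) | H191.Split ℚ ℚ 𝔭 ∧ ¬ H191.Split ℚ L 𝔭}.Finite := by
    have hf := (Ideal.finite_factors hne).image (fun v : HeightOneSpectrum (𝓞 ℚ) => v.asIdeal)
    refine hf.subset ?_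
    rintro 𝔭 ⟨⟨h1, h2, _⟩, h4⟩
    have h5 : (n : 𝓞 ℚ) ∈ 𝔭 := by
      by_contra h
      exact h4 (hsplit 𝔭 h1 h2 h)
    refine ⟨⟨𝔭, h1, h2⟩, ?_, rfl⟩
    change 𝔭 ∣ Ideal.span {(n : 𝓞 ℚ)}
    rw [Ideal.dvd_span_singleton]
    exact h5
  have h := H191.bauer ℚ ℚ L inferInstance hGal hfin
  have h1 : Module.finrank ℚ ℚ = 1 := Module.finrank_self ℚ
  have h2 : 0 < Module.finrank ℚ L := Module.finrank_pos
  omega

end

end Vale.Agent.P022.H120
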