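import Vale.Agent.P022.H735.Recip

/-! Existence of Frobenius elements at every rational prime. -/

namespace Vale.Agent.P022.H120

open NumberField

noncomputable section

lemma exists_prime_over (l : ℕ) (hl : l.Prime) : ∃ P : Ideal Zb, P.IsPrime ∧ (l : Zb) ∈ P := by
  have h : Ideal.span {(l : Zb)} ≠ ⊤ := by
    intro htop
    rw [Ideal.span_singleton_eq_top] at htop
    obtain ⟨y, hy⟩ := htop.exists_right_inv
    have h1 : ((l : ℚ)⁻¹ : ℚ) = ((l : ℚ)⁻¹) := rfl
    have hyQ : (y : Qb) = algebraMap ℚ Qb ((l : ℚ)⁻¹) := by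
      have h2 := congrArg (fun z : Zb => (z : Qb)) hy
      simp only [map_mul, map_natCast, map_one] at h2
      rw [map_inv₀, map_natCast]
      exact eq_inv_of_mul_eq_one_right h2
    have hint : IsIntegral ℤ ((l : ℚ)⁻¹) := by
      have h3 : IsIntegral ℤ (algebraMap ℚ Qb ((l : ℚ)⁻¹)) := by
        rw [← hyQ]; exact NumberField.RingOfIntegers.isIntegral_coe y
      exact (isIntegral_algebraMap_iff (algebraMap ℚ Qb).injective).mp h3
    obtain ⟨n, hn⟩ := IsIntegrallyClosed.isIntegral_iff.mp hint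
    have h4 : (n : ℚ) * l = 1 := by
      have h5 : (n : ℚ) = (l : ℚ)⁻¹ := by simpa using hn
      rw [h5]
      exact inv_mul_cancel₀ (by exact_mod_cast hl.ne_zero)
    have h5 : n * l = 1 := by exact_mod_cast h4
    have h6 : (l : ℤ) ∣ 1 := ⟨n, by rw [← h5]; ring⟩
    have h7 : l ∣ 1 := by exact_mod_cast h6
    exact hl.one_lt.ne' (Nat.dvd_one.1 h7)
  obtain ⟨P, hP, hle⟩ := Ideal.exists_le_maximal _ h
  exact ⟨P, hP.isPrime, hle (Ideal.mem_span_singleton_self _)⟩

theorem exists_frobQ (l : ℕ) (hl : l.Prime) : ∃ σ : GQ, IsFrobQ l σ := by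
  obtain ⟨P, hP, hlP⟩ := exists_prime_over l hl
  obtain ⟨τ, hτ⟩ := exists_pow_lift ℚ P l 1 hl hlP 1 (by
    intro x
    rw [one_smul, pow_one]
    obtain ⟨n, hn⟩ : ∃ n : ℤ, algebraMap (𝓞 ℚ) Zb x = (n : Zb) := by
      refine ⟨Rat.ringOfIntegersEquiv x, ?_⟩
      have h1 : x = ((Rat.ringOfIntegersEquiv x : ℤ) : 𝓞 ℚ) := by
        apply Rat.ringOfIntegersEquiv.injective
        simp
      conv_lhs => rw [h1]
      simp
    rw [hn]
    have h2 : (l : ℤ) ∣ n - n ^ l := by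
      have : Fact l.Prime := ⟨hl⟩
      rw [← ZMod.intCast_zmod_eq_zero_iff_dvd]
      push_cast
      rw [ZMod.pow_card, sub_self]
    obtain ⟨c, hc⟩ := h2
    have h3 : (n : Zb) - (n : Zb) ^ l = (l : Zb) * (c : Zb) := by exact_mod_cast congrArg (Int.cast : ℤ → Zb) hc
    rw [h3]
    exact Ideal.mul_mem_right _ _ hlP)
  exact ⟨_, P, hP, hlP, by simpa using hτ⟩

end

end Vale.Agent.P022.H120
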