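import Vale.Agent.P022.H120.IdealSide

/-! P7: from weight one forms to a 2-adic Hecke character (abstract in the system predicate). -/

namespace Vale.Agent.P022.H120

open NumberField UpperHalfPlane CongruenceSubgroup Matrix.SpecialLinearGroup
open scoped MatrixGroups ModularForm

noncomputable section

/-- The tame level attached to `K` and the tame modulus `N0`. -/
def lvl (K : Type) [Field K] [NumberField K] (N0 : ℕ) : ℕ :=
  (discr K).natAbs / 2 ^ ((discr K).natAbs.factorization 2) * N0 ^ 2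

variable {K : Type} [Field K] [NumberField K]

lemma discr_pos : 0 < (discr K).natAbs := Int.natAbs_pos.mpr (discr_ne_zero K)

lemma odd_part_odd : Odd ((discr K).natAbs / 2 ^ ((discr K).natAbs.factorization 2)) := by
  rw [← Nat.not_even_iff_odd, even_iff_two_dvd]
  exact Nat.not_dvd_ordCompl Nat.prime_two discr_pos.ne'

lemma lvl_odd {N0 : ℕ} (h : Odd N0) : Odd (lvl K N0) := odd_part_odd.mul h.pow

lemma level_eq (N0 S : ℕ) : ∃ J : ℕ,
    4 * (discr K).natAbs * (2 ^ S * N0) ^ 2 = 2 ^ J * lvl K N0 := by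
  set a := (discr K).natAbs.factorization 2 with ha
  have h1 : 2 ^ a * ((discr K).natAbs / 2 ^ a) = (discr K).natAbs := Nat.ordProj_mul_ordCompl_eq_self _ 2
  refine ⟨2 + a + 2 * S, ?_⟩
  rw [lvl, ← ha]
  conv_lhs => rw [← h1]
  ring

lemma dvd_lvl {N0 : ℕ} : N0 ∣ lvl K N0 := ⟨(discr K).natAbs / 2 ^ _ * N0, by rw [lvl]; ring⟩

lemma odd_dvd_lvl {N0 : ℕ} (e : ℤ) (he : Odd e) (hd : e ∣ discr K) : e ∣ (lvl K N0 : ℤ) := by
  set a := (discr K).natAbs.factorization 2 with ha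
  have h1 : 2 ^ a * ((discr K).natAbs / 2 ^ a) = (discr K).natAbs := Nat.ordProj_mul_ordCompl_eq_self _ 2
  have h2 : e.natAbs ∣ 2 ^ a * ((discr K).natAbs / 2 ^ a) := by
    rw [h1]; exact Int.natAbs_dvd_natAbs.mpr hd
  have h3 : Nat.Coprime e.natAbs (2 ^ a) := by
    apply Nat.Coprime.pow_right
    exact Nat.coprime_two_right.mpr (Int.natAbs_odd.mpr he)
  have h4 := h3.dvd_of_dvd_mul_left h2
  have h5 : (e.natAbs : ℤ) ∣ (lvl K N0 : ℤ) := by
    rw [lvl, ← ha]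
    exact_mod_cast h4.mul_right _
  exact (Int.natAbs_dvd).mp h5

lemma coef_one (ξ : Ideal (𝓞 K) →*₀ ℂ) : coef ξ 1 = 1 := by
  rw [coef_eq]
  have : (Ideal.finite_setOfPred_absNorm_eq (S := 𝓞 K) 1).toFinset = {⊤} := by
    ext I
    simp [Ideal.absNorm_eq_one_iff]
  rw [this, Finset.sum_singleton, ← Ideal.one_eq_top, map_one]

lemma prime_dvd_lvl {N0 p : ℕ} (hp : p.Prime) (hp2 : p ≠ 2) :
    p ∣ lvl K N0 ↔ ((p : ℤ) ∣ discr K ∨ p ∣ N0) := by
  set a := (discr K).natAbs.factorization 2 with ha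
  have h1 : 2 ^ a * ((discr K).natAbs / 2 ^ a) = (discr K).natAbs := Nat.ordProj_mul_ordCompl_eq_self _ 2
  have h3 : Nat.Coprime p (2 ^ a) := by
    apply Nat.Coprime.pow_right
    exact Nat.coprime_two_right.mpr (hp.odd_of_ne_two hp2)
  rw [lvl, ← ha, hp.dvd_mul]
  apply or_congr
  · rw [Int.natCast_dvd]
    exact ⟨fun h => h1 ▸ h.mul_left _, fun h => h3.dvd_of_dvd_mul_left (by rw [h1]; exact h)⟩
  · exact ⟨fun h => hp.dvd_of_dvd_pow h, fun h => dvd_pow h two_ne_zero⟩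

/-- The combination for a Hecke character, in terms of an arbitrary decreasing family of
annihilators. -/
theorem sys_hecke (P6 : P6_statement) {v : AbsoluteValue ℂ ℝ} (hv : TwoAdic v)
    (hK : Module.finrank ℚ K = 2) {w : K → ℂ} (hw : IsSign w) {N0 : ℕ} (hN0 : Odd N0)
    {Ψ : Ideal (𝓞 K) →*₀ ℂ} (hΨ : IsHecke v Ψ N0 w)
    {G : Type} (Ann : ℕ → FreeAlgebra ℤ G → Prop) (hmono : ∀ k l, k ≤ l → ∀ P, Ann l P → Ann k P)
    (x : G → MonoidAlgebra ℤ (PI K (2 * N0)))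
    (key : ∀ (S : ℕ) (ξ : Ideal (𝓞 K) →*₀ ℂ), IsRay ξ (2 ^ S * N0) w →
      ((∀ d : ℕ, Odd d → d ≡ 1 [MOD lvl K N0] → neben ξ d = 1) ∨
        (∀ d : ℕ, Odd d → d ≡ 1 [MOD lvl K N0] → neben ξ d = ((ZMod.χ₄ (d : ZMod 4) : ℤ) : ℂ))) →
      ∀ j m : ℕ, ∃ k, ∀ P, Ann k P →
        v (FreeAlgebra.lift ℤ (fun g => ev (tw (2 * N0) ξ j) (x g)) P) ≤ (1 / 2) ^ m) :
    ∀ m : ℕ, ∃ k, ∀ P, Ann k P →
      v (FreeAlgebra.lift ℤ (fun g => ev (tw (2 * N0) Ψ 0) (x g)) P) ≤ (1 / 2) ^ m := by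
  refine combine hv.nonarch Ann hmono x (tw (2 * N0) Ψ 0) fun m => ?_
  obtain ⟨r, c, ep, j, S, _, hray, hneb, happ⟩ := P6 v hv K hK w hw N0 (lvl K N0) (lvl_odd hN0)
    dvd_lvl (fun e he hd => odd_dvd_lvl e he hd) Ψ hΨ m
  refine ⟨r, c, fun i => tw (2 * N0) (ep i) (j i), fun I => ?_, fun i m' => ?_⟩
  · have h := happ I (by have h2 := mem_PI.mp I.2; push_cast at h2; exact h2)
    simp only [tw_apply, pow_zero, mul_one]
    convert h using 4
    ring
  · exact key S (ep i) (hray i) (hneb i) (j i) m'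

end

end Vale.Agent.P022.H120
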