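import Vale.Agent.P022.H735.GDefs
import Vale.Agent.P022.H120.P7
import Vale.Agent.P022.H120.Embed

/-! Transfer of a 2-adic representation over a finite extension `E` of the 2-adic numbers to the
complex numbers with a 2-adic absolute value. -/

namespace Vale.Agent.P022.H120

open NumberField

noncomputable section

open Matrix.GeneralLinearGroup in
/-- The image of a representation under a ring homomorphism. -/
def bc {E F : Type} [Field E] [Field F] (i : E →+* F)
    (r : GQ →* Matrix.GeneralLinearGroup (Fin 2) E) :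
    GQ →* Matrix.GeneralLinearGroup (Fin 2) F :=
  (Matrix.GeneralLinearGroup.map i).comp r

lemma bc_apply {E F : Type} [Field E] [Field F] (i : E →+* F)
    (r : GQ →* Matrix.GeneralLinearGroup (Fin 2) E) (g : GQ) :
    (bc i r g : Matrix (Fin 2) (Fin 2) F) = (r g : Matrix (Fin 2) (Fin 2) E).map i := by
  ext a b
  rfl

lemma bc_injective {E F : Type} [Field E] [Field F] (i : E →+* F) :
    Function.Injective (Matrix.GeneralLinearGroup.map (n := Fin 2) i) := by
  intro x y h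
  ext a b
  have h1 := congrArg (fun z : Matrix.GeneralLinearGroup (Fin 2) F =>
    (z : Matrix (Fin 2) (Fin 2) F) a b) h
  exact i.injective h1

lemma unram_bc {E F : Type} [Field E] [Field F] (i : E →+* F)
    (r : GQ →* Matrix.GeneralLinearGroup (Fin 2) E) (p : ℕ) : UnramQ (bc i r) p ↔ UnramQ r p := by
  constructor
  · intro h P hP hp σ hσ
    have := h P hP hp σ hσ
    apply bc_injective i
    rw [map_one]; exact this
  · intro h P hP hp σ hσ
    change Matrix.GeneralLinearGroup.map i (r σ) = 1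
    rw [h P hP hp σ hσ, map_one]

lemma vcont_bc {E : Type} [NormedField E] {v : AbsoluteValue ℂ ℝ} {i : E →+* ℂ}
    (hi : ∀ x, v (i x) = ‖x‖) (r : GQ →* Matrix.GeneralLinearGroup (Fin 2) E)
    (hr : Continuous r) : VCont v (bc i r) := by
  intro m
  have h1 : ∀ a b : Fin 2, Continuous fun g : GQ => (r g : Matrix (Fin 2) (Fin 2) E) a b := by
    intro a b
    exact (Units.continuous_val.comp hr).matrix_elem a b
  let V : Set GQ := {g | ∀ a b : Fin 2,
    ‖(r g : Matrix (Fin 2) (Fin 2) E) a b - (1 : Matrix (Fin 2) (Fin 2) E) a b‖ < (1 / 2) ^ m}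
  have hV : IsOpen V := by
    have : V = ⋂ a : Fin 2, ⋂ b : Fin 2, {g | ‖(r g : Matrix (Fin 2) (Fin 2) E) a b -
        (1 : Matrix (Fin 2) (Fin 2) E) a b‖ < (1 / 2) ^ m} := by
      ext g; simp [V]
    rw [this]
    refine isOpen_iInter_of_finite fun a => isOpen_iInter_of_finite fun b => ?_
    exact isOpen_lt ((h1 a b).sub continuous_const).norm continuous_const
  have h1V : (1 : GQ) ∈ V := by
    intro a b
    simp
  obtain ⟨U, hU⟩ := (krullTopology_mem_nhds_one_iff ℚ Qb V).mp (hV.mem_nhds h1V)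
  obtain ⟨hfin, hUV⟩ := hU
  refine ⟨U.fixingSubgroup, ?_, fun g hg a b => ?_⟩
  · exact IntermediateField.fixingSubgroup_isOpen U
  · have h2 := hUV hg a b
    have h3 : ((bc i r g : Matrix (Fin 2) (Fin 2) ℂ) a b - (1 : Matrix (Fin 2) (Fin 2) ℂ) a b)
        = i ((r g : Matrix (Fin 2) (Fin 2) E) a b - (1 : Matrix (Fin 2) (Fin 2) E) a b) := by
      rw [bc_apply, map_sub, Matrix.map_apply, Matrix.one_apply, Matrix.one_apply]
      split_ifs <;> simp
    rw [h3, hi]
    exact h2.le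

/-- The whole Galois side. -/
theorem galois_side (hG : G_statement) (E : Type) [NormedField E] [NormedAlgebra ℚ_[2] E]
    [FiniteDimensional ℚ_[2] E] (r : GQ →* Matrix.GeneralLinearGroup (Fin 2) E)
    (hr : Continuous r)
    (hodd : ∃ c : GQ, IsConjQ c ∧ (r c : Matrix (Fin 2) (Fin 2) E).det = -1)
    (hirr : ∀ (F : Type) [Field F] (i : E →+* F) (x : Fin 2 → F), x ≠ 0 →
      ∃ g : GQ, ∀ c : F, ((r g : Matrix (Fin 2) (Fin 2) E).map i).mulVec x ≠ c • x)
    (hfin : {p : ℕ | p.Prime ∧ ¬ UnramQ r p}.Finite)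
    (H : Subgroup GQ) (hH : H.index = 2) (hc : ∀ a ∈ H, ∀ b ∈ H, r a * r b = r b * r a) :
    ∃ (v : AbsoluteValue ℂ ℝ) (i : E →+* ℂ), TwoAdic v ∧ (∀ x, v (i x) = ‖x‖) ∧
      ∃ (K : Type) (_ : Field K) (_ : NumberField K), Module.finrank ℚ K = 2 ∧
        ∃ (w : K → ℂ) (N0 : ℕ) (Ψ : Ideal (𝓞 K) →*₀ ℂ), IsSign w ∧ Odd N0 ∧
          IsHecke v Ψ N0 w ∧
          (∀ p : ℕ, p.Prime → p ∣ lvl K N0 → ¬ UnramQ r p) ∧
          (∀ l : ℕ, l.Prime → ¬ l ∣ 2 * lvl K N0 → UnramQ r l ∧
            ∀ σ : GQ, IsFrobQ l σ → i (r σ : Matrix (Fin 2) (Fin 2) E).trace = coef Ψ l ∧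
              i (r σ : Matrix (Fin 2) (Fin 2) E).det = neben Ψ l) := by
  classical
  obtain ⟨v, i, hv, hi⟩ := exists_embed E
  refine ⟨v, i, hv, hi, ?_⟩
  set R : Finset ℕ := hfin.toFinset.filter (fun p => p ≠ 2) with hR
  have hR1 : ∀ p : ℕ, p.Prime → p ≠ 2 → (p ∈ R ↔ ¬ UnramQ (bc i r) p) := by
    intro p hp hp2
    rw [unram_bc]
    simp [hR, hp, hp2]
  have hR2 : ∀ p ∈ R, p.Prime ∧ p ≠ 2 := by
    intro p hp
    simp only [hR, Finset.mem_filter, Set.Finite.mem_toFinset] at hp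
    exact ⟨hp.1.1, hp.2⟩
  obtain ⟨K, _, _, hK, w, N0, Ψ, hw, hN0, hN0R, hD, hΨ, hfrob⟩ := hG v hv (bc i r)
    (vcont_bc hi r hr)
    (fun x hx => by
      obtain ⟨g, hg⟩ := hirr ℂ i x hx
      exact ⟨g, fun c => by rw [bc_apply]; exact hg c⟩)
    (by
      obtain ⟨c, hc1, hc2⟩ := hodd
      refine ⟨c, hc1, ?_⟩
      rw [bc_apply, ← RingHom.mapMatrix_apply, ← RingHom.map_det, hc2]
      simp)
    R hR1 hR2 H hH
    (fun a ha b hb => by
      change Matrix.GeneralLinearGroup.map i (r a) * Matrix.GeneralLinearGroup.map i (r b) =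
        Matrix.GeneralLinearGroup.map i (r b) * Matrix.GeneralLinearGroup.map i (r a)
      have h1 := congrArg (Matrix.GeneralLinearGroup.map (n := Fin 2) i) (hc a ha b hb)
      rwa [map_mul (Matrix.GeneralLinearGroup.map (n := Fin 2) i) (r a) (r b),
        map_mul (Matrix.GeneralLinearGroup.map (n := Fin 2) i) (r b) (r a)] at h1)
  refine ⟨K, inferInstance, inferInstance, hK, w, N0, Ψ, hw, hN0, hΨ, ?_, ?_⟩
  · intro p hp hpN
    have hp2 : p ≠ 2 := by
      rintro rfl
      exact (Nat.not_even_iff_odd.mpr (lvl_odd (K := K) hN0)) (even_iff_two_dvd.mpr hpN)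
    have hpR : p ∈ R := by
      rcases (prime_dvd_lvl hp hp2).mp hpN with h | h
      · exact hD p hp hp2 h
      · exact (hN0R p hp).mp h
    exact fun h => (hR1 p hp hp2).mp hpR ((unram_bc i r p).mpr h)
  · intro l hl hlN
    have hl2 : l ≠ 2 := by
      rintro rfl
      exact hlN (dvd_mul_right _ _)
    have hlR : l ∉ R := by
      intro h
      apply hlN
      refine Dvd.dvd.mul_left ?_ 2
      exact (prime_dvd_lvl hl hl2).mpr (Or.inr ((hN0R l hl).mpr h))
    refine ⟨?_, fun σ hσ => ?_⟩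
    · by_contra h
      exact hlR ((hR1 l hl hl2).mpr fun h' => h ((unram_bc i r l).mp h'))
    · obtain ⟨h1, h2⟩ := hfrob l hl hl2 hlR σ hσ
      refine ⟨?_, ?_⟩
      · rw [← h1, bc_apply, Matrix.trace, Matrix.trace, map_sum]
        rfl
      · rw [← h2, bc_apply, ← RingHom.mapMatrix_apply, ← RingHom.map_det]

end

end Vale.Agent.P022.H120
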