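import Vale.Agent.P022.Sys
import Vale.Agent.P022.H120.Transfer
import Vale.Agent.P022.H120.FrobEx

/-! Final assembly: dihedral 2-adic representations occur at odd level. -/

namespace Vale.Agent.P022.H120

open NumberField

noncomputable section

/-- The automorphic side (proved from P4, P5, P6 and the trace argument). -/
def HeckeSys : Prop :=
  ∀ (v : AbsoluteValue ℂ ℝ), TwoAdic v →
  ∀ (K : Type) [Field K] [NumberField K], Module.finrank ℚ K = 2 → ∀ (w : K → ℂ), IsSign w →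
    ∀ (N0 : ℕ), Odd N0 → ∀ (Ψ : Ideal (𝓞 K) →*₀ ℂ), IsHecke v Ψ N0 w → ∀ [NeZero (lvl K N0)],
    SysOK v (lvl K N0) (coef Ψ) (neben Ψ)

lemma v_hecke_le {v : AbsoluteValue ℂ ℝ} {K : Type} [Field K] [NumberField K] {N0 : ℕ}
    {w : K → ℂ} {Ψ : Ideal (𝓞 K) →*₀ ℂ} (hΨ : IsHecke v Ψ N0 w) (I : Ideal (𝓞 K)) :
    v (Ψ I) ≤ 1 := by
  by_cases h : IsCoprime I (idl K (2 * N0))
  · exact (hΨ.unit I h).le
  · have : Ψ I = 0 := by
      by_contra h0
      exact h ((hΨ.supp I).mp h0)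
    rw [this]; simp

lemma v_coef_le {v : AbsoluteValue ℂ ℝ} (hv : TwoAdic v) {K : Type} [Field K] [NumberField K]
    {N0 : ℕ} {w : K → ℂ} {Ψ : Ideal (𝓞 K) →*₀ ℂ} (hΨ : IsHecke v Ψ N0 w) (l : ℕ) :
    v (coef Ψ l) ≤ 1 := by
  rw [coef_eq]
  exact v_sum_le hv.nonarch _ _ zero_le_one fun I _ => v_hecke_le hΨ I

lemma v_neben_le {v : AbsoluteValue ℂ ℝ} (hv : TwoAdic v) {K : Type} [Field K] [NumberField K]
    {N0 : ℕ} {w : K → ℂ} {Ψ : Ideal (𝓞 K) →*₀ ℂ} (hΨ : IsHecke v Ψ N0 w) (l : ℕ) :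
    v (neben Ψ l) ≤ 1 := by
  rw [neben, map_mul]
  have h1 := v_int_le hv.nonarch (jacobiSym (discr K) l)
  have h2 := v_hecke_le hΨ (idl K l)
  exact mul_le_one₀ h1 (v.nonneg _) h2

theorem dihedral_occurs (hG : G_statement) (hS : HeckeSys) (hM : Main_statement)
    (E : Type) [NormedField E] [NormedAlgebra ℚ_[2] E] [FiniteDimensional ℚ_[2] E]
    (r : GQ →* GL (Fin 2) E) (hr : Continuous r) (hodd : ∃ c, IsConjQ c ∧
      (r c : Matrix (Fin 2) (Fin 2) E).det = -1) (hirr : AbsIrred r)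
    (hfin : {p : ℕ | p.Prime ∧ ¬ UnramQ r p}.Finite)
    (H : Subgroup GQ) (hH : H.index = 2) (hc : ∀ a ∈ H, ∀ b ∈ H, r a * r b = r b * r a) :
    ∃ (N : ℕ) (_ : NeZero N), Odd N ∧ (∀ p : ℕ, p.Prime → p ∣ N → ¬ UnramQ r p) ∧ Occurs r N := by
  classical
  obtain ⟨v, i, hv, hi, K, _, _, hK, w, N0, Ψ, hw, hN0, hΨ, hram, hfrob⟩ :=
    galois_side hG E r hr hodd hirr hfin H hH hc
  have hNpos : lvl K N0 ≠ 0 := (lvl_odd hN0).pos.ne'
  have hne : NeZero (lvl K N0) := ⟨hNpos⟩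
  refine ⟨lvl K N0, hne, lvl_odd hN0, hram, fun l hl hlN => (hfrob l hl hlN).1, ?_⟩
  -- the values
  have hex : ∀ l : ℕ, ∃ σ : GQ, l.Prime → IsFrobQ l σ := fun l => by
    by_cases hl : l.Prime
    · obtain ⟨σ, hσ⟩ := exists_frobQ l hl
      exact ⟨σ, fun _ => hσ⟩
    · exact ⟨1, fun h => absurd h hl⟩
  choose F hF using hex
  set t : ℕ → E := fun l => (r (F l) : Matrix (Fin 2) (Fin 2) E).trace with ht
  set d : ℕ → E := fun l => (r (F l) : Matrix (Fin 2) (Fin 2) E).det with hd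
  have ht' : ∀ l : ℕ, l.Prime → ¬ l ∣ 2 * lvl K N0 → i (t l) = coef Ψ l := fun l hl hlN =>
    ((hfrob l hl hlN).2 (F l) (hF l hl)).1
  have hd' : ∀ l : ℕ, l.Prime → ¬ l ∣ 2 * lvl K N0 → i (d l) = neben Ψ l := fun l hl hlN =>
    ((hfrob l hl hlN).2 (F l) (hF l hl)).2
  have : CompleteSpace E := FiniteDimensional.complete ℚ_[2] E
  obtain ⟨lam, hcont, hnorm, hlin, hval⟩ := hM v E i hi (lvl K N0) t d
    (fun l hl hlN => by
      rw [← hi, ← hi, ht' l hl hlN, hd' l hl hlN]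
      exact ⟨v_coef_le hv hΨ l, v_neben_le hv hΨ l⟩)
    (by
      intro m
      obtain ⟨k, hk⟩ := hS v hv K hK w hw N0 hN0 Ψ hΨ m
      refine ⟨k, fun P hP => ?_⟩
      have h1 := hk P hP
      have h2 : valGen (lvl K N0) (fun l => i (t l)) (fun l => i (d l))
          = valGen (lvl K N0) (coef Ψ) (neben Ψ) := by
        funext x
        unfold valGen
        have h3 := ht' x.1 x.1.2.1 x.1.2.2
        have h4 := hd' x.1 x.1.2.1 x.1.2.2
        beta_reduce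
        rw [h3, h4]
      unfold evHom at h1 ⊢
      rw [h2]
      exact h1)
  refine ⟨lam, hcont, hnorm, hlin, fun l hl hlN σ hσ => ?_⟩
  obtain ⟨h1, h2⟩ := hval l hl hlN
  obtain ⟨h3, h4⟩ := (hfrob l hl hlN).2 σ hσ
  constructor
  · rw [h1]
    apply i.injective
    rw [ht' l hl hlN, h3]
  · rw [h2]
    apply i.injective
    rw [hd' l hl hlN, h4]

end

end Vale.Agent.P022.H120
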