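import Vale.Agent.P022.H116.Spec

/-! P12a4: the class group is generated by the primes dividing some `m` prime to `t`. -/

namespace Vale.Agent.P022.H120

open NumberField IsDedekindDomain nonZeroDivisors
open Vale.Agent.P022.CFT

noncomputable section

variable {L : Type} [Field L] [NumberField L]

lemma exists_coprime_rep (J : Ideal (𝓞 L)) (hJ : J ≠ 0) (T : Ideal (𝓞 L)) (hT : T ≠ 0) :
    ∃ J' : Ideal (𝓞 L), ∃ x : 𝓞 L, x ≠ 0 ∧ J * J' = Ideal.span {x} ∧ IsCoprime J' T := by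
  obtain ⟨a, ha⟩ := IsDedekindDomain.exists_sup_span_eq (I := J * T) (J := J) Ideal.mul_le_left
    (mul_ne_zero hJ hT)
  by_cases ha0 : a = 0
  · have h1 : J * T = J := by
      rw [ha0, Ideal.span_singleton_zero, sup_bot_eq] at ha
      exact ha
    have h2 : T = ⊤ := by
      have : J * T = J * 1 := h1.trans (mul_one J).symm
      have h4 : T = 1 := mul_left_cancel₀ hJ this
      rw [h4, Ideal.one_eq_top]
    obtain ⟨y, hy, hy0⟩ := Submodule.exists_mem_ne_zero_of_ne_bot (by simpa using hJ : J ≠ ⊥)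
    obtain ⟨J', hJ'⟩ := Ideal.dvd_iff_le.mpr (J.span_singleton_le_iff_mem.mpr hy)
    refine ⟨J', y, hy0, hJ'.symm, ?_⟩
    rw [h2, ← Ideal.one_eq_top]
    exact isCoprime_one_right
  · have h1 : Ideal.span {a} ≤ J := ha ▸ le_sup_right
    obtain ⟨J', hJ'⟩ := Ideal.dvd_iff_le.mpr h1
    refine ⟨J', a, ha0, hJ'.symm, ?_⟩
    rw [Ideal.isCoprime_iff_sup_eq]
    have h3 : J * (T + J') = J * 1 := by
      calc J * (T + J') = J * T + J * J' := mul_add _ _ _
        _ = J * T ⊔ Ideal.span {a} := congrArg (fun X => J * T + X) hJ'.symm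
        _ = J := ha
        _ = J * 1 := (mul_one J).symm
    have h2 : T + J' = 1 := mul_left_cancel₀ hJ h3
    rw [sup_comm, ← Ideal.add_eq_sup, h2, Ideal.one_eq_top]

lemma coprime_absNorm {J : Ideal (𝓞 L)} (hJ : J ≠ 0) {t : ℕ}
    (h : IsCoprime J (Ideal.span {(t : 𝓞 L)})) : Nat.Coprime (Ideal.absNorm J) t := by
  by_contra hc
  obtain ⟨p, hp, hpJ, hpt⟩ := Nat.Prime.not_coprime_iff_dvd.mp hc
  have hfin : Finite (𝓞 L ⧸ J) := Ideal.finiteQuotientOfFreeOfNeBot J (by simpa using hJ)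
  have := Fintype.ofFinite (𝓞 L ⧸ J)
  have : Fact p.Prime := ⟨hp⟩
  have hcard : Nat.card (𝓞 L ⧸ J) = Ideal.absNorm J := by
    rw [Ideal.absNorm_apply]; rfl
  obtain ⟨x, hx⟩ := exists_prime_addOrderOf_dvd_card' (G := 𝓞 L ⧸ J) p (by rw [hcard]; exact hpJ)
  have htx : (t : 𝓞 L ⧸ J) * x = 0 := by
    obtain ⟨k, rfl⟩ := hpt
    have h1 : p • x = 0 := by rw [← hx]; exact addOrderOf_nsmul_eq_zero x
    rw [nsmul_eq_mul] at h1
    push_cast
    rw [mul_comm (p : 𝓞 L ⧸ J), mul_assoc, h1, mul_zero]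
  rw [Ideal.isCoprime_iff_exists] at h
  obtain ⟨i, hi, j, hj, hij⟩ := h
  obtain ⟨c, rfl⟩ := Ideal.mem_span_singleton.mp hj
  have h2 : (Ideal.Quotient.mk J (c : 𝓞 L)) * (t : 𝓞 L ⧸ J) = 1 := by
    have := congrArg (Ideal.Quotient.mk J) hij
    rw [map_add, Ideal.Quotient.eq_zero_iff_mem.mpr hi, zero_add, map_mul, map_one,
      map_natCast] at this
    rw [mul_comm]; exact this
  have h3 : x = 0 := by
    calc x = (Ideal.Quotient.mk J (c : 𝓞 L)) * (t : 𝓞 L ⧸ J) * x := by rw [h2, one_mul]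
      _ = 0 := by rw [mul_assoc, htx, mul_zero]
  rw [h3, addOrderOf_zero] at hx
  exact hp.one_lt.ne hx

open Classical in
lemma val_of_mul_eq {v w : HeightOneSpectrum (𝓞 L)} {J : Ideal (𝓞 L)} {x : 𝓞 L} (hx : x ≠ 0)
    (h : v.asIdeal * J = Ideal.span {x}) (hw : ¬ J ≤ w.asIdeal) :
    w.intValuation x = if w = v then WithZero.exp (-1 : ℤ) else 1 := by
  have hdvd : ∀ n : ℕ, w.asIdeal ^ n ∣ v.asIdeal * J ↔ w.asIdeal ^ n ∣ v.asIdeal := by
    intro n
    constructor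
    · intro hd
      have hcop : IsCoprime (w.asIdeal ^ n) J := by
        apply IsCoprime.pow_left
        rw [Ideal.isCoprime_iff_sup_eq]
        exact (w.isMaximal).1.2 _ (lt_of_le_of_ne le_sup_left fun he =>
          hw (he ▸ le_sup_right))
      exact hcop.dvd_of_dvd_mul_right hd
    · exact fun hd => hd.mul_right _
  split_ifs with hwv
  · subst hwv
    apply le_antisymm
    · have := (w.intValuation_le_pow_iff_dvd x 1).mpr (by
        rw [← h, hdvd]; simp)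
      simpa using this
    · by_contra hlt
      push Not at hlt
      have hx0 : w.intValuation x ≠ 0 := w.intValuation_ne_zero x hx
      have h2 : w.intValuation x ≤ WithZero.exp (-((2 : ℕ) : ℤ)) := by
        obtain ⟨k, hk⟩ := WithZero.ne_zero_iff_exists.mp hx0
        rw [← hk] at hlt ⊢
        have h3 : (k : WithZero (Multiplicative ℤ)) = WithZero.exp (Multiplicative.toAdd k) := rfl
        rw [h3] at hlt ⊢
        rw [WithZero.exp_lt_exp] at hlt
        rw [WithZero.exp_le_exp]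
        push_cast
        omega
      rw [w.intValuation_le_pow_iff_dvd x 2, ← h, hdvd] at h2
      have h4 : w.asIdeal ^ 2 ∣ w.asIdeal * 1 := by simpa using h2
      rw [pow_two] at h4
      have h5 := (mul_dvd_mul_iff_left w.ne_bot).mp h4
      exact w.isPrime.ne_top (by simpa using isUnit_of_dvd_one h5)
  · rw [w.intValuation_eq_one_iff_mem_primeCompl]
    intro hmem
    have h1 : w.asIdeal ^ 1 ∣ v.asIdeal := by
      rw [← hdvd, h, pow_one, Ideal.dvd_span_singleton]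
      exact hmem
    rw [pow_one, Ideal.dvd_iff_le] at h1
    apply hwv
    ext1
    exact ((v.isMaximal).eq_of_le w.isPrime.ne_top h1).symm

theorem propGen : PropGen := by
  intro L _ _ t ht
  classical
  have hT : Ideal.span {(t : 𝓞 L)} ≠ 0 := by
    rw [Ne, Ideal.zero_eq_bot, Ideal.span_singleton_eq_bot]
    exact_mod_cast ht.ne'
  have hrep : ∀ c : ClassGroup (𝓞 L), ∃ J' : (Ideal (𝓞 L))⁰, ClassGroup.mk0 J' = c⁻¹ ∧
      IsCoprime (J' : Ideal (𝓞 L)) (Ideal.span {(t : 𝓞 L)}) := by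
    intro c
    obtain ⟨J, rfl⟩ := ClassGroup.mk0_surjective c
    obtain ⟨J', x, hx, hJJ, hcop⟩ := exists_coprime_rep (J : Ideal (𝓞 L))
      (nonZeroDivisors.coe_ne_zero J) _ hT
    have hJ' : J' ≠ 0 := by
      rintro rfl
      rw [mul_zero, eq_comm, Ideal.zero_eq_bot, Ideal.span_singleton_eq_bot] at hJJ
      exact hx hJJ
    refine ⟨⟨J', mem_nonZeroDivisors_of_ne_zero hJ'⟩, ?_, hcop⟩
    rw [ClassGroup.mk0_eq_mk0_inv_iff]
    exact ⟨x, hx, by rw [← hJJ, mul_comm]⟩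
  choose J' hJ'c hJ'cop using hrep
  have hJ'0 : ∀ c, (J' c : Ideal (𝓞 L)) ≠ 0 := fun c => nonZeroDivisors.coe_ne_zero _
  refine ⟨∏ c, Ideal.absNorm (J' c : Ideal (𝓞 L)), ?_, ?_, ?_⟩
  · refine Finset.prod_pos fun c _ => Nat.pos_of_ne_zero ?_
    rw [Ne, Ideal.absNorm_eq_zero_iff]
    simpa using hJ'0 c
  · exact Nat.Coprime.prod_left fun c _ => coprime_absNorm (hJ'0 c) (hJ'cop c)
  · intro v hv
    have hnotle : ∀ w : HeightOneSpectrum (𝓞 L),
        ((∏ c, Ideal.absNorm (J' c : Ideal (𝓞 L)) : ℕ) : 𝓞 L) ∉ w.asIdeal →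
        ∀ c, ¬ (J' c : Ideal (𝓞 L)) ≤ w.asIdeal := by
      intro w hw c hle
      apply hw
      have h1 : ((Ideal.absNorm (J' c : Ideal (𝓞 L)) : ℕ) : 𝓞 L) ∈ w.asIdeal :=
        hle (Ideal.absNorm_mem _)
      obtain ⟨k, hk⟩ : Ideal.absNorm (J' c : Ideal (𝓞 L)) ∣ ∏ c, Ideal.absNorm (J' c : Ideal (𝓞 L)) :=
        Finset.dvd_prod_of_mem _ (Finset.mem_univ c)
      rw [hk]
      push_cast
      exact Ideal.mul_mem_right _ _ h1
    set v0 : (Ideal (𝓞 L))⁰ := ⟨v.asIdeal, mem_nonZeroDivisors_of_ne_zero v.ne_bot⟩ with hv0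
    obtain ⟨x, hx, hxe⟩ := ClassGroup.mk0_eq_mk0_inv_iff.mp
      (show ClassGroup.mk0 v0 = (ClassGroup.mk0 (J' (ClassGroup.mk0 v0)))⁻¹ by
        rw [hJ'c, inv_inv])
    have hxe' : v.asIdeal * (J' (ClassGroup.mk0 v0) : Ideal (𝓞 L)) = Ideal.span {x} := hxe
    refine ⟨Units.mk0 (x : L) (by simpa using hx), ?_, ?_⟩
    · have := val_of_mul_eq hx hxe' (hnotle v hv _)
      rw [if_pos rfl] at this
      rw [← this]
      exact v.valuation_of_algebraMap x
    · intro w hwv hw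
      have := val_of_mul_eq hx hxe' (hnotle w hw _)
      rw [if_neg hwv] at this
      rw [← this]
      exact w.valuation_of_algebraMap x

end

end Vale.Agent.P022.H120
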