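import Vale.Agent.P022.Iface
import Vale.Agent.P022.H120.Comb

/-! The universal system of eigenvalues in the monoid algebra of ideals. -/

namespace Vale.Agent.P022.H120

open NumberField

noncomputable section

variable (K : Type) [Field K] [NumberField K]

/-- Ideals prime to `M`. -/
def PI (M : ℕ) : Submonoid (Ideal (𝓞 K)) where
  carrier := {I | IsCoprime I (idl K M)}
  one_mem' := isCoprime_one_left
  mul_mem' := fun h h' => IsCoprime.mul_left h h'

variable {K}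

lemma mem_PI {M : ℕ} {I : Ideal (𝓞 K)} : I ∈ PI K M ↔ IsCoprime I (idl K M) := Iff.rfl

/-- The character `I ↦ χ I * N(I)^j` on ideals prime to `M`. -/
def tw (M : ℕ) (χ : Ideal (𝓞 K) →*₀ ℂ) (j : ℕ) : PI K M →* ℂ where
  toFun I := χ I * (Ideal.absNorm (I : Ideal (𝓞 K)) : ℂ) ^ j
  map_one' := by simpa using map_one χ
  map_mul' := fun I J => by
    simp only [Submonoid.coe_mul, map_mul, Nat.cast_mul, mul_pow]
    ring

@[simp] lemma tw_apply (M : ℕ) (χ : Ideal (𝓞 K) →*₀ ℂ) (j : ℕ) (I : PI K M) :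
    tw M χ j I = χ I * (Ideal.absNorm (I : Ideal (𝓞 K)) : ℂ) ^ j := rfl

/-- An ideal of norm prime to `M` is prime to `M`. -/
lemma mem_PI_of_coprime {M : ℕ} {I : Ideal (𝓞 K)} (h : Nat.Coprime (Ideal.absNorm I) M) :
    I ∈ PI K M := by
  rw [mem_PI, Ideal.isCoprime_iff_sup_eq, Ideal.eq_top_iff_one]
  have h1 : IsCoprime ((Ideal.absNorm I : ℕ) : ℤ) (M : ℤ) := Nat.isCoprime_iff_coprime.mpr h
  obtain ⟨a, b, hab⟩ := h1
  have h2 : ((a : 𝓞 K)) * ((Ideal.absNorm I : ℕ) : 𝓞 K) + (b : 𝓞 K) * (M : 𝓞 K) = 1 := by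
    have := congrArg (Int.cast : ℤ → 𝓞 K) hab
    push_cast at this
    exact this
  rw [← h2]
  refine Ideal.add_mem _ ?_ ?_
  · exact Ideal.mem_sup_left (Ideal.mul_mem_left _ _ (Ideal.absNorm_mem I))
  · refine Ideal.mem_sup_right (Ideal.mul_mem_left _ _ ?_)
    exact Ideal.mem_span_singleton.mpr (by push_cast; exact dvd_rfl)

open Classical in
/-- The sum of the ideals of norm `l`. -/
def tI (M l : ℕ) : MonoidAlgebra ℤ (PI K M) :=
  ∑ I ∈ (Ideal.finite_setOfPred_absNorm_eq (S := 𝓞 K) l).toFinset,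
    if h : I ∈ PI K M then MonoidAlgebra.single ⟨I, h⟩ 1 else 0

open Classical in
/-- `(D / l) [(l)]`. -/
def dI (M l : ℕ) : MonoidAlgebra ℤ (PI K M) :=
  if h : idl K l ∈ PI K M then MonoidAlgebra.single ⟨idl K l, h⟩ (jacobiSym (discr K) l) else 0

lemma ev_single {S : Type} [Monoid S] (φ : S →* ℂ) (s : S) (n : ℤ) :
    ev φ (MonoidAlgebra.single s n) = n * φ s := by
  simp [ev]

lemma coef_eq (χ : Ideal (𝓞 K) →*₀ ℂ) (l : ℕ) :
    coef χ l = ∑ I ∈ (Ideal.finite_setOfPred_absNorm_eq (S := 𝓞 K) l).toFinset, χ I := by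
  rw [coef, finsum_mem_eq_finite_toFinset_sum _ (Ideal.finite_setOfPred_absNorm_eq (S := 𝓞 K) l)]

lemma ev_tI {M l : ℕ} (hl : Nat.Coprime l M) (χ : Ideal (𝓞 K) →*₀ ℂ) (j : ℕ) :
    ev (tw M χ j) (tI M l) = (l : ℂ) ^ j * coef χ l := by
  classical
  rw [coef_eq, tI, map_sum, Finset.mul_sum]
  refine Finset.sum_congr rfl fun I hI => ?_
  have hn : Ideal.absNorm I = l := by simpa using hI
  have hI' : I ∈ PI K M := mem_PI_of_coprime (by rw [hn]; exact hl)
  rw [dif_pos hI', ev_single, tw_apply, hn]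
  push_cast
  ring

lemma absNorm_idl (hK : Module.finrank ℚ K = 2) (l : ℕ) : Ideal.absNorm (idl K l) = l ^ 2 := by
  have h1 : Module.finrank ℤ (𝓞 K) = 2 := by
    rw [RingOfIntegers.rank, hK]
  rw [idl, Ideal.absNorm_span_singleton]
  have h2 : ((l : ℤ) : 𝓞 K) = algebraMap ℤ (𝓞 K) (l : ℤ) := by simp
  rw [h2, Algebra.norm_algebraMap, h1]
  simp [Int.natAbs_pow]

lemma ev_dI (hK : Module.finrank ℚ K = 2) {M l : ℕ} (hl : Nat.Coprime l M)
    (χ : Ideal (𝓞 K) →*₀ ℂ) (j : ℕ) :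
    ev (tw M χ j) (dI M l) = (l : ℂ) ^ (2 * j) * neben χ l := by
  classical
  have hm : idl K l ∈ PI K M := mem_PI_of_coprime (by
    rw [absNorm_idl hK]; exact Nat.Coprime.pow_left 2 hl)
  rw [dI, dif_pos hm, ev_single, tw_apply, neben]
  simp only [absNorm_idl hK]
  push_cast
  ring

end

end Vale.Agent.P022.H120
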