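import Vale.Agent.P022.H735.GDefs
import Vale.Agent.P022.H120.IdealSide

/-! P11a: from reciprocity modulo every `2^m` to a 2-adic Hecke character with a fixed odd
modulus. -/

namespace Vale.Agent.P022.H120

open NumberField

noncomputable section

section basic

variable {v : AbsoluteValue ℂ ℝ}

lemma v_odd (hv : TwoAdic v) {T : ℕ} (hT : Odd T) : v (T : ℂ) = 1 := by
  obtain ⟨k, rfl⟩ := hT
  have h1 : v ((k : ℂ) * 2) ≤ 1 / 2 := by
    rw [map_mul, hv.two]
    have := v_int_le hv.nonarch (k : ℤ)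
    push_cast at this
    linarith
  have h2 : v ((2 * k + 1 : ℕ) : ℂ) ≤ 1 := by
    simpa using v_int_le hv.nonarch ((2 * k + 1 : ℕ) : ℤ)
  refine le_antisymm h2 ?_
  by_contra hlt
  push Not at hlt
  have h3 : v (1 : ℂ) ≤ max (v ((2 * k + 1 : ℕ) : ℂ)) (v (-((k : ℂ) * 2))) := by
    have := hv.nonarch ((2 * k + 1 : ℕ) : ℂ) (-((k : ℂ) * 2))
    convert this using 2
    push_cast; ring
  rw [map_one, v.map_neg] at h3
  rcases le_max_iff.mp h3 with h | h <;> linarith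

lemma v_pow_sub_one (hv : TwoAdic v) {u : ℂ} (hu : v u = 1) {T : ℕ} (hT : Odd T)
    (h1 : v (u - 1) ≤ 1 / 2) : v (u ^ T - 1) = v (u - 1) := by
  have hsum : v (∑ i ∈ Finset.range T, u ^ i) = 1 := by
    have hpow : ∀ i : ℕ, v (u ^ i - 1) ≤ 1 / 2 := by
      intro i
      induction i with
      | zero => simp
      | succ i ih =>
        have : u ^ (i + 1) - 1 = u * (u ^ i - 1) + (u - 1) := by ring
        rw [this]
        refine (hv.nonarch _ _).trans (max_le ?_ h1)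
        rw [map_mul, hu, one_mul]; exact ih
    have hd : v (∑ i ∈ Finset.range T, u ^ i - T) ≤ 1 / 2 := by
      have : (∑ i ∈ Finset.range T, u ^ i - T : ℂ) = ∑ i ∈ Finset.range T, (u ^ i - 1) := by
        simp
      rw [this]
      exact v_sum_le hv.nonarch _ _ (by norm_num) fun i _ => hpow i
    have hT1 := v_odd hv hT
    refine le_antisymm ?_ ?_
    · have : (∑ i ∈ Finset.range T, u ^ i : ℂ) = (∑ i ∈ Finset.range T, u ^ i - T) + T := by ring
      rw [this]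
      exact (hv.nonarch _ _).trans (max_le (hd.trans (by norm_num)) hT1.le)
    · by_contra hlt
      push Not at hlt
      have h3 : v (T : ℂ) ≤ max (v (∑ i ∈ Finset.range T, u ^ i)) (v (-(∑ i ∈ Finset.range T, u ^ i - T))) := by
        have := hv.nonarch (∑ i ∈ Finset.range T, u ^ i) (-(∑ i ∈ Finset.range T, u ^ i - T))
        convert this using 2
        ring
      rw [hT1, v.map_neg] at h3
      rcases le_max_iff.mp h3 with h | h <;> linarith
  have := geom_sum_mul u T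
  rw [← this, map_mul, hsum, one_mul]

end basic

section ray

variable {K : Type} [Field K] [NumberField K]

lemma mem_idl {n : ℤ} {x : 𝓞 K} : x ∈ idl K n ↔ (n : 𝓞 K) ∣ x := Ideal.mem_span_singleton

lemma sub_one_mul {M : ℤ} {a b : 𝓞 K} (ha : a - 1 ∈ idl K M) (hb : b - 1 ∈ idl K M) :
    a * b - 1 ∈ idl K M := by
  have : a * b - 1 = a * (b - 1) + (a - 1) := by ring
  rw [this]
  exact Ideal.add_mem _ (Ideal.mul_mem_left _ _ hb) ha

lemma idl_le {M M' : ℤ} (h : M ∣ M') {x : 𝓞 K} (hx : x ∈ idl K M') : x ∈ idl K M := by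
  rw [mem_idl] at *
  exact (by obtain ⟨c, rfl⟩ := h; exact ⟨(c : 𝓞 K), by push_cast; ring⟩ : (M : 𝓞 K) ∣ M').trans hx

/-- If `α = 1` modulo `A * P` then `α ^ (P ^ e) = 1` modulo `A * P ^ (e + 1)`. -/
lemma pow_pow_sub_one {A P : ℤ} {α : 𝓞 K} (h : α - 1 ∈ idl K (A * P)) (p : ℕ) (hp : (p : ℤ) = P)
    (e : ℕ) : α ^ (p ^ e) - 1 ∈ idl K (A * P ^ (e + 1)) := by
  induction e with
  | zero => simpa using h
  | succ e ih =>
    set β := α ^ (p ^ e) with hβ
    have h1 : α ^ (p ^ (e + 1)) - 1 = (∑ i ∈ Finset.range p, β ^ i) * (β - 1) := by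
      rw [geom_sum_mul, hβ, ← pow_mul, pow_succ]
    rw [h1]
    have h2 : (P : 𝓞 K) ∣ ∑ i ∈ Finset.range p, β ^ i := by
      have h3 : ∀ i, (P : 𝓞 K) ∣ β ^ i - 1 := by
        intro i
        have h4 : (P : 𝓞 K) ∣ β - 1 := by
          rw [mem_idl] at ih
          refine dvd_trans ?_ ih
          push_cast
          exact ⟨(A : 𝓞 K) * P ^ e, by ring⟩
        exact h4.trans (sub_one_dvd_pow_sub_one β i)
      have h5 : (∑ i ∈ Finset.range p, β ^ i) = (∑ i ∈ Finset.range p, (β ^ i - 1)) + (P : 𝓞 K) := by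
        rw [Finset.sum_sub_distrib]
        simp [← hp]
      rw [h5]
      exact dvd_add (Finset.dvd_sum fun i _ => h3 i) dvd_rfl
    rw [mem_idl] at ih ⊢
    have h6 := mul_dvd_mul h2 ih
    refine dvd_trans ?_ h6
    push_cast
    exact ⟨1, by ring⟩

variable {v : AbsoluteValue ℂ ℝ} (u : Ideal (𝓞 K) → ℂ)

lemma prodU_mul {I J : Ideal (𝓞 K)} (hI : I ≠ 0) (hJ : J ≠ 0) :
    prodU u (I * J) = prodU u I * prodU u J := by
  rw [prodU, UniqueFactorizationMonoid.normalizedFactors_mul hI hJ, Multiset.map_add,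
    Multiset.prod_add]
  rfl

lemma prodU_one : prodU u (1 : Ideal (𝓞 K)) = 1 := by
  rw [prodU, UniqueFactorizationMonoid.normalizedFactors_one]; simp

lemma v_prodU (hu : ∀ 𝔭, v (u 𝔭) = 1) (I : Ideal (𝓞 K)) : v (prodU u I) = 1 := by
  rw [prodU, map_multiset_prod, Multiset.map_map]
  rw [Multiset.prod_eq_one]
  intro x hx
  obtain ⟨p, _, rfl⟩ := Multiset.mem_map.mp hx
  exact hu p

/-- The value at a principal ideal. -/
def uu (α : 𝓞 K) : ℂ := prodU u (Ideal.span {α})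

lemma uu_mul {a b : 𝓞 K} (ha : a ≠ 0) (hb : b ≠ 0) : uu u (a * b) = uu u a * uu u b := by
  rw [uu, ← Ideal.span_singleton_mul_span_singleton, prodU_mul]
  · rfl
  · simpa using ha
  · simpa using hb

lemma uu_pow {a : 𝓞 K} (ha : a ≠ 0) (n : ℕ) : uu u (a ^ n) = uu u a ^ n := by
  induction n with
  | zero =>
    rw [pow_zero, pow_zero, uu, Ideal.span_singleton_one]
    simpa using prodU_one u
  | succ n ih => rw [pow_succ, uu_mul u (pow_ne_zero n ha) ha, ih, pow_succ]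

end ray

section signs

variable {K : Type} [Field K] [NumberField K]

lemma two_real (hK : Module.finrank ℚ K = 2) (σ : K →+* ℝ) :
    ∃ σ' : K →+* ℝ, σ' ≠ σ ∧ ∀ τ : K →+* ℝ, τ = σ ∨ τ = σ' := by
  classical
  have hc : Fintype.card (K →+* ℂ) = 2 := by rw [NumberField.Embeddings.card K ℂ, hK]
  set φ : K →+* ℂ := Complex.ofRealHom.comp σ with hφ
  have hinj : ∀ τ τ' : K →+* ℝ, Complex.ofRealHom.comp τ = Complex.ofRealHom.comp τ' → τ = τ' := by
    intro τ τ' h
    ext x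
    have := RingHom.congr_fun h x
    simpa using this
  obtain ⟨φ', hne, hall⟩ : ∃ φ' : K →+* ℂ, φ' ≠ φ ∧ ∀ χ : K →+* ℂ, χ = φ ∨ χ = φ' := by
    have h1 : (Finset.univ : Finset (K →+* ℂ)).card = 2 := by simpa using hc
    obtain ⟨a, b, hab, h2⟩ := Finset.card_eq_two.mp h1
    have hφm : φ ∈ ({a, b} : Finset (K →+* ℂ)) := h2 ▸ Finset.mem_univ φ
    rcases Finset.mem_insert.mp hφm with h | h
    · refine ⟨b, by rw [h]; exact hab.symm, fun χ => ?_⟩
      have : χ ∈ ({a, b} : Finset (K →+* ℂ)) := h2 ▸ Finset.mem_univ χ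
      rcases Finset.mem_insert.mp this with h' | h'
      · left; rw [h', h]
      · right; exact Finset.mem_singleton.mp h'
    · have hb := Finset.mem_singleton.mp h
      refine ⟨a, by rw [hb]; exact hab, fun χ => ?_⟩
      have : χ ∈ ({a, b} : Finset (K →+* ℂ)) := h2 ▸ Finset.mem_univ χ
      rcases Finset.mem_insert.mp this with h' | h'
      · right; exact h'
      · left; rw [Finset.mem_singleton.mp h', hb]
  have hreal : NumberField.ComplexEmbedding.IsReal φ' := by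
    rw [NumberField.ComplexEmbedding.isReal_iff]
    rcases hall (NumberField.ComplexEmbedding.conjugate φ') with h | h
    · exfalso
      apply hne
      have h1 : NumberField.ComplexEmbedding.conjugate (NumberField.ComplexEmbedding.conjugate φ')
          = φ' := by ext x; simp
      rw [← h1, h]
      ext x
      simp [NumberField.ComplexEmbedding.conjugate_coe_eq, hφ]
    · exact h
  have hσ' : Complex.ofRealHom.comp hreal.embedding = φ' := by
    ext x
    simp [NumberField.ComplexEmbedding.IsReal.coe_embedding_apply hreal x]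
  refine ⟨hreal.embedding, fun h => hne (by rw [← hσ', h]), fun τ => ?_⟩
  rcases hall (Complex.ofRealHom.comp τ) with h | h
  · left; exact hinj _ _ h
  · right; exact hinj _ _ (h.trans hσ'.symm)

lemma exists_delta {σ σ' : K →+* ℝ} (h : σ' ≠ σ) : ∃ d : 𝓞 K, 0 < σ d ∧ σ' d < 0 := by
  obtain ⟨t, ht⟩ : ∃ t : 𝓞 K, σ t ≠ σ' t := by
    by_contra hcon
    push Not at hcon
    apply h
    apply RingHom.ext
    intro x
    obtain ⟨a, b, hb, rfl⟩ := IsFractionRing.div_surjective (A := 𝓞 K) x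
    rw [map_div₀, map_div₀]
    have h1 := hcon a
    have h2 := hcon b
    rw [show algebraMap (𝓞 K) K a = (a : K) from rfl, show algebraMap (𝓞 K) K b = (b : K) from rfl,
      h1, h2]
  obtain ⟨t, ht⟩ : ∃ t : 𝓞 K, σ' t < σ t := by
    rcases lt_or_gt_of_ne ht with h1 | h1
    · exact ⟨-t, by simpa using h1⟩
    · exact ⟨t, h1⟩
  obtain ⟨q, hq1, hq2⟩ := exists_rat_btwn ht
  have hqd : (0 : ℝ) < (q.den : ℝ) := by exact_mod_cast q.den_pos
  have hq : (q : ℝ) * q.den = q.num := by exact_mod_cast Rat.mul_den_eq_num q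
  refine ⟨(q.den : 𝓞 K) * t - (q.num : 𝓞 K), ?_, ?_⟩
  · have : σ (((q.den : 𝓞 K) * t - (q.num : 𝓞 K) : 𝓞 K) : K) = q.den * σ t - q.num := by
      simp
    rw [this, ← hq]
    nlinarith
  · have : σ' (((q.den : 𝓞 K) * t - (q.num : 𝓞 K) : 𝓞 K) : K) = q.den * σ' t - q.num := by
      simp
    rw [this, ← hq]
    nlinarith

/-- Elements of mixed signature in every congruence class of `1`. -/
lemma exists_mixed {σ σ' : K →+* ℝ} (h : σ' ≠ σ) (M : ℕ) (hM : 0 < M) :
    ∃ a : 𝓞 K, a ≠ 0 ∧ a - 1 ∈ idl K M ∧ 0 < σ a ∧ σ' a < 0 := by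
  obtain ⟨d, hd, hd'⟩ := exists_delta h
  obtain ⟨k, hk⟩ := exists_nat_gt (1 / (- σ' d))
  have hMr : (1 : ℝ) ≤ M := by exact_mod_cast hM
  have hk' : 1 < (k : ℝ) * (- σ' d) := by
    rwa [div_lt_iff₀ (by linarith)] at hk
  have hkpos : (0 : ℝ) ≤ k := Nat.cast_nonneg k
  have e1 : ∀ τ : K →+* ℝ, τ ((1 + (M : 𝓞 K) * k * d : 𝓞 K) : K) = 1 + M * k * τ d := by
    intro τ; simp
  refine ⟨1 + (M : 𝓞 K) * k * d, ?_, ?_, ?_, ?_⟩
  · intro h0
    have := e1 σ
    rw [h0] at this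
    simp only [map_zero] at this
    have h1 : 0 ≤ (M : ℝ) * k * σ d := by positivity
    linarith
  · rw [mem_idl]
    push_cast
    exact ⟨(k : 𝓞 K) * d, by ring⟩
  · rw [e1]
    have h1 : 0 ≤ (M : ℝ) * k * σ d := by positivity
    linarith
  · rw [e1]
    have h1 : (M : ℝ) * (k * (- σ' d)) ≥ 1 * (k * (- σ' d)) :=
      mul_le_mul_of_nonneg_right hMr (by linarith)
    nlinarith

end signs

section main

variable {K : Type} [Field K] [NumberField K] {v : AbsoluteValue ℂ ℝ}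

lemma dvd_prod_pow (R : Finset ℕ) {b : ℕ} (hb : 0 < b) (h : ∀ p : ℕ, p.Prime → p ∣ b → p ∈ R) :
    ∃ e : ℕ, b ∣ (∏ p ∈ R, p) ^ e := by
  refine ⟨b, ?_⟩
  have h1 : b = ∏ p ∈ b.primeFactors, p ^ b.factorization p := by
    conv_lhs => rw [← Nat.prod_factorization_pow_eq_self hb.ne']
    rfl
  have h2 : ∏ p ∈ b.primeFactors, p ^ b.factorization p ∣ ∏ p ∈ b.primeFactors, p ^ b := by
    refine Finset.prod_dvd_prod_of_dvd _ _ fun p _ => pow_dvd_pow p ?_
    exact (Nat.factorization_lt p hb.ne').le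
  have h3 : ∏ p ∈ b.primeFactors, p ^ b ∣ (∏ p ∈ R, p) ^ b := by
    rw [Finset.prod_pow]
    refine pow_dvd_pow_of_dvd (Finset.prod_dvd_prod_of_subset _ _ _ fun p hp => ?_) b
    exact h p (Nat.prime_of_mem_primeFactors hp) (Nat.dvd_of_mem_primeFactors hp)
  calc b = ∏ p ∈ b.primeFactors, p ^ b.factorization p := h1
    _ ∣ _ := h2.trans h3

/-- Set of elements congruent to 1. -/
def Xs (K : Type) [Field K] [NumberField K] (N0 s : ℕ) (a : 𝓞 K) : Prop :=
  a ≠ 0 ∧ a - 1 ∈ idl K ((2 : ℤ) ^ s * N0)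

lemma Xs.mul {N0 s : ℕ} {a b : 𝓞 K} (ha : Xs K N0 s a) (hb : Xs K N0 s b) :
    Xs K N0 s (a * b) := ⟨mul_ne_zero ha.1 hb.1, sub_one_mul ha.2 hb.2⟩

lemma Xs.mono {N0 s t : ℕ} (h : t ≤ s) {a : 𝓞 K} (ha : Xs K N0 s a) : Xs K N0 t a :=
  ⟨ha.1, idl_le (mul_dvd_mul_right (pow_dvd_pow 2 h) _) ha.2⟩

/-- Lemma C. -/
lemma lemmaC (hv : TwoAdic v) (N0 : ℕ) (hN0 : 0 < N0) (U : 𝓞 K → ℂ)
    (hU1 : ∀ a, v (U a) = 1) (hUm : ∀ a b, a ≠ 0 → b ≠ 0 → U (a * b) = U a * U b)
    (σ σ' : K →+* ℝ) (hne : σ' ≠ σ)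
    (hA : ∀ m : ℕ, ∃ s, ∀ a, Xs K N0 s a → 0 < σ a → 0 < σ' a → v (U a - 1) ≤ (1 / 2) ^ m)
    (hB : ∀ m : ℕ, ∃ s, ∀ a, Xs K N0 s a → σ a < 0 → σ' a < 0 → v (U a + 1) ≤ (1 / 2) ^ m)
    (s1 : ℕ) (hs1 : ∀ a, Xs K N0 s1 a → 0 < σ a → 0 < σ' a → v (U a - 1) ≤ (1 / 2) ^ 3)
    (a1 : 𝓞 K) (ha1 : Xs K N0 s1 a1) (ha1p : 0 < σ a1) (ha1n : σ' a1 < 0)
    (hU : v (U a1 - 1) ≤ 1 / 4) :
    ∀ m : ℕ, ∃ s, ∀ a, Xs K N0 s a → v (U a - (if 0 < σ a then 1 else -1)) ≤ (1 / 2) ^ m := by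
  intro m
  obtain ⟨sA, hsA⟩ := hA (m + 3)
  obtain ⟨sB, hsB⟩ := hB (m + 3)
  have hpow : ((1 : ℝ) / 2) ^ (m + 3) ≤ (1 / 2) ^ m :=
    pow_le_pow_of_le_one (by norm_num) (by norm_num) (by omega)
  have hpow1 : ((1 : ℝ) / 2) ^ (m + 3) = (1 / 2) ^ m * (1 / 8) := by rw [pow_add]; norm_num
  have hmp : (0 : ℝ) < (1 / 2) ^ m := by positivity
  have nz : ∀ (τ : K →+* ℝ) (a : 𝓞 K), a ≠ 0 → τ a ≠ 0 := fun τ a ha h => by
    apply ha
    have := (map_eq_zero τ).mp h
    exact_mod_cast this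
  -- type (+,-)
  have hpm : ∀ a, Xs K N0 (s1 + sA + sB) a → 0 < σ a → σ' a < 0 → v (U a - 1) ≤ (1 / 2) ^ m := by
    intro a ha h1 h2
    have e2 : v (U a * U a - 1) ≤ (1 / 2) ^ (m + 3) := by
      rw [← hUm a a ha.1 ha.1]
      refine hsA _ ((ha.mul ha).mono (by omega)) ?_ ?_
      · push_cast; rw [map_mul]; exact mul_pos h1 h1
      · push_cast; rw [map_mul]; exact mul_pos_of_neg_of_neg h2 h2
    have e3 : v (U a * U a1 - 1) ≤ (1 / 2) ^ 3 := by
      rw [← hUm a a1 ha.1 ha1.1]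
      refine hs1 _ ((ha.mono (by omega)).mul ha1) ?_ ?_
      · push_cast; rw [map_mul]; exact mul_pos h1 ha1p
      · push_cast; rw [map_mul]; exact mul_pos_of_neg_of_neg h2 ha1n
    have e4 : v (U a - 1) ≤ 1 / 4 := by
      have : U a - 1 = (U a * U a1 - 1) + (-(U a * (U a1 - 1))) := by ring
      rw [this]
      refine (hv.nonarch _ _).trans (max_le (e3.trans (by norm_num)) ?_)
      rw [v.map_neg, map_mul, hU1, one_mul]; exact hU
    have e5 : 1 / 2 ≤ v (U a + 1) := by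
      by_contra hlt
      push Not at hlt
      have h3 : v (2 : ℂ) ≤ max (v (U a + 1)) (v (-(U a - 1))) := by
        have := hv.nonarch (U a + 1) (-(U a - 1))
        convert this using 2
        ring
      rw [hv.two, v.map_neg] at h3
      rcases le_max_iff.mp h3 with h | h <;> linarith
    have e6 : v (U a - 1) * v (U a + 1) ≤ (1 / 2) ^ (m + 3) := by
      rw [← map_mul]
      convert e2 using 2
      ring
    have h0 := v.nonneg (U a - 1)
    nlinarith
  refine ⟨s1 + sA + sB, fun a ha => ?_⟩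
  rcases lt_or_gt_of_ne (nz σ a ha.1) with h1 | h1
  · rw [if_neg (not_lt.mpr h1.le), sub_neg_eq_add]
    rcases lt_or_gt_of_ne (nz σ' a ha.1) with h2 | h2
    · exact (hsB a (ha.mono (by omega)) h1 h2).trans hpow
    · obtain ⟨b, hb0, hb1, hb2, hb3⟩ := exists_mixed hne (2 ^ (s1 + sA + sB) * N0) (by positivity)
      have hb : Xs K N0 (s1 + sA + sB) b := ⟨hb0, by simpa using hb1⟩
      have e1 := hpm b hb hb2 hb3
      have e2 : v (U a * U b + 1) ≤ (1 / 2) ^ (m + 3) := by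
        rw [← hUm a b ha.1 hb.1]
        refine hsB _ ((ha.mul hb).mono (by omega)) ?_ ?_
        · push_cast; rw [map_mul]; exact mul_neg_of_neg_of_pos h1 hb2
        · push_cast; rw [map_mul]; exact mul_neg_of_pos_of_neg h2 hb3
      have : U a + 1 = (U a * U b + 1) + (-(U a * (U b - 1))) := by ring
      rw [this]
      refine (hv.nonarch _ _).trans (max_le (e2.trans hpow) ?_)
      rw [v.map_neg, map_mul, hU1, one_mul]; exact e1
  · rw [if_pos h1]
    rcases lt_or_gt_of_ne (nz σ' a ha.1) with h2 | h2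
    · exact hpm a ha h1 h2
    · exact (hsA a (ha.mono (by omega)) h1 h2).trans hpow

lemma lemmaD (hv : TwoAdic v) (N0 : ℕ) (hN0 : 0 < N0) (U : 𝓞 K → ℂ)
    (hU1 : ∀ a, v (U a) = 1) (hUm : ∀ a b, a ≠ 0 → b ≠ 0 → U (a * b) = U a * U b)
    (σ σ' : K →+* ℝ) (hne : σ' ≠ σ)
    (hA : ∀ m : ℕ, ∃ s, ∀ a, Xs K N0 s a → 0 < σ a → 0 < σ' a → v (U a - 1) ≤ (1 / 2) ^ m)
    (hB : ∀ m : ℕ, ∃ s, ∀ a, Xs K N0 s a → σ a < 0 → σ' a < 0 → v (U a + 1) ≤ (1 / 2) ^ m) :
    ∃ τ : K →+* ℝ, ∀ m : ℕ, ∃ s, ∀ a, Xs K N0 s a →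
      v (U a - (if 0 < τ a then 1 else -1)) ≤ (1 / 2) ^ m := by
  obtain ⟨sA, hsA⟩ := hA 3
  obtain ⟨sB, hsB⟩ := hB 3
  set s1 := sA + sB with hs1
  obtain ⟨a, ha0, ha1, ha2, ha3⟩ := exists_mixed hne (2 ^ s1 * N0) (by positivity)
  obtain ⟨b, hb0, hb1, hb2, hb3⟩ := exists_mixed hne.symm (2 ^ s1 * N0) (by positivity)
  have ha : Xs K N0 s1 a := ⟨ha0, by simpa using ha1⟩
  have hb : Xs K N0 s1 b := ⟨hb0, by simpa using hb1⟩
  have e2 : v (U a * U a - 1) ≤ (1 / 2) ^ 3 := by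
    rw [← hUm a a ha.1 ha.1]
    refine hsA _ ((ha.mul ha).mono (by omega)) ?_ ?_
    · push_cast; rw [map_mul]; exact mul_pos ha2 ha2
    · push_cast; rw [map_mul]; exact mul_pos_of_neg_of_neg ha3 ha3
  have e3 : v (U a * U b + 1) ≤ (1 / 2) ^ 3 := by
    rw [← hUm a b ha.1 hb.1]
    refine hsB _ ((ha.mul hb).mono (by omega)) ?_ ?_
    · push_cast; rw [map_mul]; exact mul_neg_of_pos_of_neg ha2 hb3
    · push_cast; rw [map_mul]; exact mul_neg_of_neg_of_pos ha3 hb2
  have e6 : v (U a - 1) * v (U a + 1) ≤ (1 / 2) ^ 3 := by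
    rw [← map_mul]
    convert e2 using 2
    ring
  have hdich : v (U a - 1) ≤ 1 / 4 ∨ v (U a + 1) ≤ 1 / 4 := by
    by_contra hcon
    push Not at hcon
    obtain ⟨c1, c2⟩ := hcon
    have h3 : v (2 : ℂ) ≤ max (v (U a + 1)) (v (-(U a - 1))) := by
      have := hv.nonarch (U a + 1) (-(U a - 1))
      convert this using 2
      ring
    rw [hv.two, v.map_neg] at h3
    norm_num at e6
    rcases le_max_iff.mp h3 with h | h <;> nlinarith
  rcases hdich with h | h
  · exact ⟨σ, lemmaC hv N0 hN0 U hU1 hUm σ σ' hne hA hB s1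
      (fun x hx h1 h2 => hsA x (hx.mono (by omega)) h1 h2) a ha ha2 ha3 h⟩
  · refine ⟨σ', lemmaC hv N0 hN0 U hU1 hUm σ' σ hne.symm ?_ ?_ s1 ?_ b hb hb2 hb3 ?_⟩
    · intro m
      obtain ⟨s, hs⟩ := hA m
      exact ⟨s, fun x hx h1 h2 => hs x hx h2 h1⟩
    · intro m
      obtain ⟨s, hs⟩ := hB m
      exact ⟨s, fun x hx h1 h2 => hs x hx h2 h1⟩
    · exact fun x hx h1 h2 => hsA x (hx.mono (by omega)) h2 h1
    · have : U b - 1 = -(U a * U b + 1) + (U a + 1) * U b := by ring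
      rw [this]
      refine (hv.nonarch _ _).trans (max_le ?_ ?_)
      · rw [v.map_neg]; exact e3.trans (by norm_num)
      · rw [map_mul, hU1, mul_one]; exact h

lemma not_coprime_zero (hK : Module.finrank ℚ K = 2) {N0 : ℕ} :
    ¬ IsCoprime (0 : Ideal (𝓞 K)) (idl K (2 * N0)) := by
  intro h
  rw [isCoprime_zero_left, Ideal.isUnit_iff] at h
  have h1 : Ideal.absNorm (idl K ((2 * N0 : ℕ) : ℤ)) = (2 * N0) ^ 2 := absNorm_idl hK (2 * N0)
  rw [show ((2 * N0 : ℕ) : ℤ) = 2 * (N0 : ℤ) by push_cast; ring, h, Ideal.absNorm_top] at h1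
  have h2 : (1 : ℕ) = 4 * N0 ^ 2 := by rw [h1]; ring
  omega

theorem P11a : P11a_statement := by
  intro v hv K _ _ hK u hu R hR hrec hneg
  classical
  set P : ℕ := ∏ p ∈ R, p with hP
  obtain ⟨M1, hM1, hM1R, hM1r⟩ := hrec 1
  obtain ⟨a, b, hb, rfl⟩ := Nat.exists_eq_two_pow_mul_odd hM1.ne'
  have hPodd : Odd P := by
    rw [hP]
    refine Finset.prod_induction _ Odd (fun _ _ h1 h2 => h1.mul h2) odd_one fun p hp => ?_
    exact (hR p hp).1.odd_of_ne_two (hR p hp).2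
  have hPpos : 0 < P := hPodd.pos
  have hbpos : 0 < b := hb.pos
  set N0 : ℕ := b * P with hN0
  have hN0odd : Odd N0 := hb.mul hPodd
  have hN0pos : 0 < N0 := hN0odd.pos
  have hprimes : ∀ p : ℕ, p.Prime → (p ∣ N0 ↔ p ∈ R) := by
    intro p hp
    constructor
    · intro h
      have hp2 : p ≠ 2 := by
        rintro rfl
        exact (Nat.not_even_iff_odd.mpr hN0odd) (even_iff_two_dvd.mpr h)
      rcases (Nat.Prime.dvd_mul hp).mp h with h1 | h1
      · exact hM1R p hp hp2 (h1.mul_left _)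
      · rw [hP, (Nat.prime_iff.mp hp).dvd_finsetProd_iff] at h1
        obtain ⟨q, hq, hpq⟩ := h1
        rwa [(Nat.prime_dvd_prime_iff_eq hp (hR q hq).1).mp hpq]
    · intro h
      exact (Finset.dvd_prod_of_mem _ h).mul_left _
  -- totally positive elements
  have hApos : ∀ m : ℕ, ∃ s, ∀ α, Xs K N0 s α → (∀ σ : K →+* ℝ, 0 < σ α) →
      v (uu u α - 1) ≤ (1 / 2) ^ m := by
    intro m
    obtain ⟨M, hM, hMR, hMr⟩ := hrec m
    obtain ⟨c, d, hd, rfl⟩ := Nat.exists_eq_two_pow_mul_odd hM.ne'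
    obtain ⟨e, he⟩ := dvd_prod_pow R hd.pos (fun p hp hpd => hMR p hp (by
      rintro rfl
      exact (Nat.not_even_iff_odd.mpr hd) (even_iff_two_dvd.mpr hpd)) (hpd.mul_left _))
    refine ⟨a + c, fun α hα hpos => ?_⟩
    have h1 : v (uu u α - 1) ≤ 1 / 2 := by
      have := hM1r α hα.1 (idl_le ?_ hα.2) hpos
      · rw [pow_one] at this
        exact this
      · push_cast
        rw [hN0]
        push_cast
        exact mul_dvd_mul (pow_dvd_pow 2 (by omega)) (dvd_mul_right _ _)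
    have h2 := pow_pow_sub_one (A := (2 : ℤ) ^ (a + c) * b) (P := (P : ℤ)) (α := α) (by
      have := hα.2
      rw [hN0] at this
      push_cast at this
      rwa [← mul_assoc] at this) P rfl e
    have h3 : v (uu u α ^ (P ^ e) - 1) ≤ (1 / 2) ^ m := by
      rw [← uu_pow u hα.1]
      refine hMr _ (pow_ne_zero _ hα.1) (idl_le ?_ h2) fun σ => ?_
      · push_cast
        have h4 : (2 : ℤ) ^ c ∣ 2 ^ (a + c) * b := (pow_dvd_pow 2 (by omega)).mul_right _
        have h5 : (d : ℤ) ∣ (P : ℤ) ^ (e + 1) := by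
          have : (d : ℤ) ∣ ((P ^ e : ℕ) : ℤ) := by exact_mod_cast he
          push_cast at this
          exact this.trans (pow_dvd_pow _ (by omega))
        exact mul_dvd_mul h4 h5
      · push_cast; rw [map_pow]; exact pow_pos (hpos σ) _
    have h6 := v_pow_sub_one hv (u := uu u α) (v_prodU u hu _) (hPodd.pow (n := e)) h1
    rwa [h6] at h3
  have hU1 : ∀ x, v (uu u x) = 1 := fun x => v_prodU u hu _
  have hUm : ∀ x y : 𝓞 K, x ≠ 0 → y ≠ 0 → uu u (x * y) = uu u x * uu u y := fun x y hx hy =>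
    uu_mul u hx hy
  -- the sign
  obtain ⟨w, hw, hcont⟩ : ∃ w : K → ℂ, IsSign w ∧ ∀ m : ℕ, ∃ s, ∀ x, Xs K N0 s x →
      v (uu u x - w x) ≤ (1 / 2) ^ m := by
    by_cases hreal : Nonempty (K →+* ℝ)
    · obtain ⟨σ⟩ := hreal
      obtain ⟨σ', hne, hall⟩ := two_real hK σ
      have hA : ∀ m : ℕ, ∃ s, ∀ x, Xs K N0 s x → 0 < σ x → 0 < σ' x →
          v (uu u x - 1) ≤ (1 / 2) ^ m := by
        intro m
        obtain ⟨s, hs⟩ := hApos m
        refine ⟨s, fun x hx h1 h2 => hs x hx fun τ => ?_⟩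
        rcases hall τ with rfl | rfl
        · exact h1
        · exact h2
      have hB : ∀ m : ℕ, ∃ s, ∀ x, Xs K N0 s x → σ x < 0 → σ' x < 0 →
          v (uu u x + 1) ≤ (1 / 2) ^ m := by
        intro m
        obtain ⟨s, hs⟩ := hA m
        obtain ⟨M, hM, hMn⟩ := hneg ⟨σ, trivial⟩ m
        refine ⟨s, fun x hx h1 h2 => ?_⟩
        set L : ℕ := M * (2 ^ s * N0) * 2 with hL
        have hLpos : 2 ≤ L := by
          have : 0 < M * (2 ^ s * N0) := by positivity
          omega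
        set n : ℕ := L - 1 with hn
        have hnL : n + 1 = L := by omega
        have hnpos : 0 < n := by omega
        set y : 𝓞 K := -(n : 𝓞 K) with hy
        have hyX : Xs K N0 s y := by
          refine ⟨?_, ?_⟩
          · rw [hy]; simpa using hnpos.ne'
          · rw [mem_idl]
            refine ⟨-(2 * M : 𝓞 K), ?_⟩
            have h3 : ((n : 𝓞 K)) + 1 = (L : 𝓞 K) := by exact_mod_cast congrArg (Nat.cast : ℕ → 𝓞 K) hnL
            have h4 : y - 1 = -(L : 𝓞 K) := by rw [hy, ← h3]; ring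
            rw [h4, hL]
            push_cast
            ring
        have hneg' : ∀ τ : K →+* ℝ, τ y < 0 := by
          intro τ
          rw [hy]
          simp only [map_neg, map_natCast]
          have : (0 : ℝ) < n := by exact_mod_cast hnpos
          linarith
        have e1 : v (uu u x * uu u y - 1) ≤ (1 / 2) ^ m := by
          rw [← hUm x y hx.1 hyX.1]
          refine hs _ (hx.mul hyX) ?_ ?_
          · push_cast; rw [map_mul]; exact mul_pos_of_neg_of_neg h1 (hneg' σ)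
          · push_cast; rw [map_mul]; exact mul_pos_of_neg_of_neg h2 (hneg' σ')
        have e2 : v (uu u y + 1) ≤ (1 / 2) ^ m := by
          have := hMn n hnpos ⟨(2 ^ s * N0) * 2, by rw [hnL, hL]; ring⟩
          have h3 : idl K (n : ℤ) = Ideal.span {y} := by
            rw [hy, Ideal.span_singleton_neg]
            simp [idl]
          rwa [h3] at this
        have : uu u x + 1 = uu u x * (uu u y + 1) + (-(uu u x * uu u y - 1)) := by ring
        rw [this]
        refine (hv.nonarch _ _).trans (max_le ?_ ?_)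
        · rw [map_mul, hU1, one_mul]; exact e2
        · rw [v.map_neg]; exact e1
      obtain ⟨τ, hτ⟩ := lemmaD hv N0 hN0pos (uu u) hU1 hUm σ σ' hne hA hB
      exact ⟨fun x => if 0 < τ x then 1 else -1, Or.inr ⟨τ, fun _ => rfl⟩, hτ⟩
    · rw [not_nonempty_iff] at hreal
      refine ⟨fun _ => 1, Or.inl ⟨hreal, fun _ => rfl⟩, fun m => ?_⟩
      obtain ⟨s, hs⟩ := hApos m
      exact ⟨s, fun x hx => hs x hx fun σ => hreal.elim σ⟩
  have hnz : ∀ I : Ideal (𝓞 K), IsCoprime I (idl K (2 * N0)) → I ≠ 0 := by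
    rintro I hI rfl
    exact not_coprime_zero hK hI
  let Ψ : Ideal (𝓞 K) →*₀ ℂ :=
    { toFun := fun I => if IsCoprime I (idl K (2 * N0)) then prodU u I else 0
      map_zero' := if_neg (not_coprime_zero hK)
      map_one' := by rw [if_pos isCoprime_one_left]; exact prodU_one u
      map_mul' := fun I J => by
        by_cases hI : IsCoprime I (idl K (2 * N0)) <;> by_cases hJ : IsCoprime J (idl K (2 * N0))
        · rw [if_pos (IsCoprime.mul_left hI hJ), if_pos hI, if_pos hJ,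
            prodU_mul u (hnz I hI) (hnz J hJ)]
        · rw [if_neg (fun h => hJ (IsCoprime.mul_left_iff.mp h).2), if_neg hJ, mul_zero]
        · rw [if_neg (fun h => hI (IsCoprime.mul_left_iff.mp h).1), if_neg hI, zero_mul]
        · rw [if_neg (fun h => hI (IsCoprime.mul_left_iff.mp h).1), if_neg hI, zero_mul] }
  have hΨ : ∀ I, IsCoprime I (idl K (2 * N0)) → Ψ I = prodU u I := fun I hI => if_pos hI
  have hΨ0 : ∀ I, ¬ IsCoprime I (idl K (2 * N0)) → Ψ I = 0 := fun I hI => if_neg hI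
  have hu0 : ∀ I : Ideal (𝓞 K), prodU u I ≠ 0 := by
    intro I h0
    have := v_prodU u hu I
    rw [h0, map_zero] at this
    exact zero_ne_one this
  refine ⟨N0, w, Ψ, hN0odd, hprimes, hw, ⟨?_, ?_, ?_⟩, hΨ⟩
  · intro I
    constructor
    · intro h
      by_contra hc
      exact h (hΨ0 I hc)
    · intro h
      rw [hΨ I h]
      exact hu0 I
  · intro I hI
    rw [hΨ I hI]
    exact v_prodU u hu I
  · intro m
    obtain ⟨s, hs⟩ := hcont m
    refine ⟨s + 1, fun α hα h1 => ?_⟩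
    have hX : Xs K N0 (s + 1) α := ⟨hα, h1⟩
    have hcop : IsCoprime (Ideal.span {α}) (idl K (2 * N0)) := by
      have h2 := idl_le (K := K) (M := 2 * (N0 : ℤ)) (M' := 2 ^ (s + 1) * N0)
        (mul_dvd_mul_right (dvd_pow_self 2 (by omega)) _) h1
      rw [Ideal.isCoprime_iff_exists]
      refine ⟨α, Ideal.mem_span_singleton_self α, -(α - 1), ?_, by ring⟩
      exact neg_mem h2
    rw [hΨ _ hcop]
    exact hs α (hX.mono (by omega))

end main

end

end Vale.Agent.P022.H120
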