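import Vale.Agent.P022.H120.FG
import Vale.Agent.P022.H120.Gen
import Vale.Agent.P022.H116.Idx
import Vale.Agent.P022.H380.Fi
import Vale.Agent.P022.H687.LocIdx
import Vale.Agent.P022.H691.GL
import Vale.Agent.P022.H691.LocInf
import Vale.Agent.P022.H691.Rem
import Vale.Agent.P022.H889.E1
import Vale.Agent.P022.H867.AR
import Vale.Agent.P022.H954.KW
import Vale.Agent.P022.H735.G
import Vale.Agent.P022.H191.Final
import Vale.Agent.P022.H436.HeckeFin
import Vale.Agent.P022.H121.Main

/-! Artin reciprocity over fields of degree at most two, the Galois side, and the final theorem. -/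

namespace Vale.Agent.P022.H120

theorem allFI : CFT.FI_statement :=
  CFT.fi (CFT.propIdx_of (H691.propLocInf_of_propLoc H687.propLoc) CFT.propE1) propGen
    H691.propUnr H691.propFrob

theorem allAR : AR_statement :=
  H867.AR allFI H191.second_ineq H191.bauer H691.rem_statement

theorem allG : G_statement :=
  G_of allAR (KW allAR FG)

theorem dihedral (E : Type) [NormedField E] [NormedAlgebra ℚ_[2] E] [FiniteDimensional ℚ_[2] E]
    (r : GQ →* Matrix.GeneralLinearGroup (Fin 2) E) (hr : Continuous r) (hodd : IsOdd r)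
    (hirr : AbsIrred r) (hfin : {p : ℕ | p.Prime ∧ ¬ UnramQ r p}.Finite)
    (H : Subgroup GQ) (hH : H.index = 2) (hc : ∀ a ∈ H, ∀ b ∈ H, r a * r b = r b * r a) :
    ∃ (N : ℕ) (_ : NeZero N), Odd N ∧ (∀ p : ℕ, p.Prime → p ∣ N → ¬ UnramQ r p) ∧ Occurs r N :=
  dihedral_occurs allG H436.heckeSys main E r hr hodd hirr hfin H hH hc

end Vale.Agent.P022.H120
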